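import Vale.Agent.P330.Outer.Phys.Defs

/-!
P330, outer system: the assembly of the physical realisation.
-/

namespace Vale.Agent.P330.Outer.Phys

open Vale.Agent.Lib.PolyTime hiding C P
open Vale.Agent.Lib.Dep
open Vale.Agent.P330.Bohr

namespace Asm

/-! ### Spectral bounds and balanced reading -/

section Grp

variable {Γ H : Type} [AddCommGroup Γ] [Group H] [DistribMulAction H Γ]

theorem gspec_mono [Fintype Γ] [Fintype H] {d : ℕ} {l l' : ℝ} {S : Fin d → Γ × H} (h : GSpec l S)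
    (h0 : 0 ≤ l) (hl : l ≤ l') : GSpec l' S := fun o f hf =>
  (h o f hf).trans (mul_le_mul_of_nonneg_right (pow_le_pow_left₀ h0 hl 2)
    (mean_nonneg fun _ => sq_nonneg _))

theorem mvA_inj (s : Γ × H) : Function.Injective (mvA s) := by
  rintro ⟨a, b, c⟩ ⟨a', b', c'⟩ h
  simp only [mvA, Prod.mk.injEq, mul_left_inj] at h
  obtain ⟨h1, rfl, rfl⟩ := h
  rw [add_right_cancel h1]

theorem mvB_inj (s : Γ × H) : Function.Injective (mvB s) := by
  rintro ⟨a, b, c⟩ ⟨a', b', c'⟩ h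
  simp only [mvB, Prod.mk.injEq, mul_left_inj] at h
  obtain ⟨h1, rfl, rfl⟩ := h
  rw [add_right_cancel h1]

theorem tau_inj (g : H) : Function.Injective (tau (Γ := Γ) g) := by
  rintro ⟨a, b, c⟩ ⟨a', b', c'⟩ h
  simp only [tau, Prod.mk.injEq, mul_right_inj, smul_left_cancel_iff] at h
  obtain ⟨rfl, rfl, rfl⟩ := h
  rfl

omit [Group H] [DistribMulAction H Γ] in
theorem shf_inj (γ : Γ) : Function.Injective (shf (H := H) γ) := by
  rintro ⟨a, b, c⟩ ⟨a', b', c'⟩ h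
  simp only [shf, Prod.mk.injEq, add_left_inj] at h
  obtain ⟨rfl, rfl, rfl⟩ := h
  rfl

end Grp

theorem rdS_inj {m a dA dB : ℕ} {F H : Type} [Group H] [MulAction H (Fin m)]
    (μ : Mem (Gam m) H F dA dB) (ν : Nav m a H) (r : RI a dA dB) :
    Function.Injective fun v => rdS μ ν v r := by
  rcases r with _ | (s | s) | ⟨i, s⟩ | i | e
  · exact Function.injective_id
  · exact mvA_inj _
  · exact mvB_inj _
  · match i with
    | 0 => exact tau_inj _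
    | 1 => exact tau_inj _
    | 2 => exact mvA_inj _
    | 3 => exact mvB_inj _
  · exact shf_inj _
  · exact (mvB_inj _).comp (mvA_inj _)

/-! ### The operations on the sites in polynomial time -/

section PT

variable {κ : Type} [Enc κ] {π : Par} {g : GP π} {c : κ → π.β}

theorem dpt_fm (hc : DPT c) : DPT fun x => elems (Fin (π.m (c x))) :=
  (dpt_elems_fin π.ptm π.pbm).comp hc

theorem dpt_mul (hc : DPT c) {u v : ∀ x, g.H.T (c x)} (hu : DPT u) (hv : DPT v) :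
    DPT fun x => u x * v x := DPT.fn2 (fun _ u v => u * v) g.ptMul hc hu hv

theorem dpt_inv (hc : DPT c) {u : ∀ x, g.H.T (c x)} (hu : DPT u) : DPT fun x => (u x)⁻¹ :=
  DPT.fn (fun _ u => u⁻¹) g.ptInv hc hu

theorem dpt_smul (hc : DPT c) {u : ∀ x, g.H.T (c x)} {v : ∀ x, Gam (π.m (c x))} (hu : DPT u)
    (hv : DPT v) : DPT fun x => u x • v x :=
  dpt_vecMk (dpt_fm hc) (dpt_vecAt (f := fun y : Σ x, Fin (π.m (c x)) => v y.1)
    (dpt_fm (hc.comp DPT.id.sfst)) (hv.comp DPT.id.sfst)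
    (DPT.fn2 (fun b (u : g.H.T b) (i : Fin (π.m b)) => u • i) g.ptAct (hc.comp DPT.id.sfst)
      (dpt_inv (hc.comp DPT.id.sfst) (hu.comp DPT.id.sfst)) DPT.ssnd))

theorem dpt_add (hc : DPT c) {u v : ∀ x, Gam (π.m (c x))} (hu : DPT u) (hv : DPT v) :
    DPT fun x => u x + v x :=
  dpt_vecMk (dpt_fm hc) (dpt_finComp (fun p : ZMod 2 × ZMod 2 => p.1 + p.2)
    ((dpt_vecEnt (dpt_fm hc) hu).pair (dpt_vecEnt (dpt_fm hc) hv)))

theorem dpt_neg (hc : DPT c) {u : ∀ x, Gam (π.m (c x))} (hu : DPT u) : DPT fun x => -u x :=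
  dpt_vecMk (dpt_fm hc) (dpt_finComp (fun p : ZMod 2 => -p) (dpt_vecEnt (dpt_fm hc) hu))

theorem dpt_zero (hc : DPT c) : DPT fun x => (0 : Gam (π.m (c x))) :=
  dpt_vecMk (dpt_fm hc) (DPT.const (0 : ZMod 2))

theorem dpt_eV (hc : DPT c) {ω : ∀ x, Fin (π.m (c x))} (h : DPT ω) : DPT fun x => eV (ω x) :=
  dpt_vecMk (dpt_fm hc) (DPT.ite (DPr.eq DPT.ssnd (h.comp DPT.id.sfst)) (DPT.const (1 : ZMod 2))
    (DPT.const 0))

variable {s : ∀ x, Gam (π.m (c x)) × g.H.T (c x)} {v : ∀ x, Site (Gam (π.m (c x))) (g.H.T (c x))}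

theorem dpt_mvA (hc : DPT c) (hs : DPT s) (hv : DPT v) : DPT fun x => mvA (s x) (v x) :=
  (dpt_add hc hv.fst (dpt_smul hc hv.snd.fst hs.fst)).pair
    ((dpt_mul hc hv.snd.fst hs.snd).pair hv.snd.snd)

theorem dpt_mvB (hc : DPT c) (hs : DPT s) (hv : DPT v) : DPT fun x => mvB (s x) (v x) :=
  (dpt_add hc hv.fst (dpt_smul hc hv.snd.snd hs.fst)).pair
    (hv.snd.fst.pair (dpt_mul hc hv.snd.snd hs.snd))

theorem dpt_tau (hc : DPT c) {u : ∀ x, g.H.T (c x)} (hu : DPT u) (hv : DPT v) :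
    DPT fun x => tau (u x) (v x) :=
  (dpt_smul hc hu hv.fst).pair ((dpt_mul hc hu hv.snd.fst).pair (dpt_mul hc hu hv.snd.snd))

theorem dpt_gen2 (hc : DPT c) {d : ℕ} {S : ∀ x, Fin d → Gam (π.m (c x)) × g.H.T (c x)}
    (hS : ∀ i, DPT fun x => S x i) (e : Bool × Fin d) : DPT fun x => gen2 (S x) e := by
  rcases e with ⟨_ | _, i⟩
  · exact (dpt_neg hc (dpt_smul hc (dpt_inv hc (hS i).snd) (hS i).fst)).pair (dpt_inv hc (hS i).snd)
  · exact hS i

theorem dpt_rdS (hc : DPT c) {dA dB : ℕ} {F : κ → Type}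
    {μ : ∀ x, Mem (Gam (π.m (c x))) (g.H.T (c x)) (F x) dA dB}
    {ν : ∀ b, Nav (π.m b) g.a (g.H.T b)} (hν : NavPT ν) (hA : ∀ i, DPT fun x => (μ x).SA i)
    (hB : ∀ i, DPT fun x => (μ x).SB i) (hv : DPT v) (r : RI g.a dA dB) :
    DPT fun x => rdS (μ x) (ν (c x)) (v x) r := by
  have h1 : ∀ i, DPT fun x => (ν (c x)).gen i := fun i =>
    ((g.ptGen i).comp hc).congr fun x => by rw [hν.gen]
  rcases r with _ | (s | s) | ⟨i, s⟩ | i | e
  · exact hv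
  · exact dpt_mvA hc (hA s) hv
  · exact dpt_mvB hc (hB s) hv
  · match i with
    | 0 => exact dpt_tau hc (h1 s) hv
    | 1 => exact dpt_tau hc (dpt_inv hc (h1 s)) hv
    | 2 => exact dpt_mvA hc ((dpt_zero hc).pair (h1 s)) hv
    | 3 => exact dpt_mvB hc ((dpt_zero hc).pair (h1 s)) hv
  · exact (dpt_add hc hv.fst (dpt_eV hc (((g.ptBase i).comp hc).congr fun x => by
      rw [hν.base]))).pair hv.snd
  · exact dpt_mvB hc (dpt_gen2 hc hB e.2) (dpt_mvA hc (dpt_gen2 hc hA e.1) hv)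

end PT

/-! ### The families of types -/

section Fam

variable {π : Par} {g : GP π} {nc : π.β → ℕ} {M : ∀ b, GM (π.m b) (nc b) (ZMod (π.p b))}
  {pub : ∀ I, ℕ → Gam (π.m (π.par I)) → ZMod (π.p (π.par I))}
  {dec : ∀ I, Vec (Fin (nc (π.par I))) (ZMod (π.p (π.par I))) →
    Vec (Fin (M (π.par I)).k) (Vec (Gam (π.m (π.par I))) (ZMod (π.p (π.par I)))) → List Bool}
  {ν : ∀ b, Nav (π.m b) g.a (g.H.T b)}

theorem dpt_ck (hM : GMOk π nc M pub dec) (hν : NavPT ν) :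
    DPT fun b => elems (Ck (NN (M b) (ν b))) :=
  dpt_elems_prod (DPT.const _) (dpt_elems_fin ((hM.ptn.natMul hν.ptD).natAdd (DPT.const 1))
    ((hM.pbn.mul hν.pbD).add (PBd.const 1)))

theorem dpt_ji (hM : GMOk π nc M pub dec) (hν : NavPT ν) (dA dB : ℕ) :
    DPT fun b => elems (JI (NN (M b) (ν b)) (nc b) (M b).n dA dB (g.H.T b)) :=
  dpt_elems_sum (dpt_elems_sum (dpt_ck hM hν)
    (dpt_elems_prod (DPT.const _) (dpt_elems_fin hM.ptc hM.pbc)))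
    (dpt_elems_prod (dpt_elems_prod (DPT.const _)
      (dpt_elems_prod (dpt_elems_fin hM.ptn hM.pbn) g.H.pt)) (DPT.const _))

theorem dpt_jc (hM : GMOk π nc M pub dec) (dA dB : ℕ) :
    DPT fun b => elems (JC (π.m b) (M b).n dA dB) :=
  dpt_elems_sum (dpt_elems_sum (dpt_elems_fin π.ptm π.pbm) (DPT.const _))
    (dpt_elems_prod (dpt_elems_fin hM.ptn hM.pbn) (DPT.const _))

theorem dpt_gam (π : Par) : DPT fun I => elems (Gam (π.m (π.par I))) :=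
  dpt_elems_vec (dpt_fm π.ptPar) (DPT.const _)
    (by simpa only [length_elems, Fintype.card_fin, ZMod.card] using π.ql.pbd)

/-- the index sets of the symbols -/
@[reducible] noncomputable def tfJ (hM : GMOk π nc M pub dec) (hν : NavPT ν) (dA dB : ℕ) :
    TF π.β where
  T b := JI (NN (M b) (ν b)) (nc b) (M b).n dA dB (g.H.T b)
  deq _ := Classical.decEq _
  ne _ := ⟨.inl (.inl (0, 0))⟩
  pt := dpt_ji hM hν dA dB

/-- the index sets of the constants -/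
@[reducible] noncomputable def tfC (hM : GMOk π nc M pub dec) (dA dB : ℕ) : TF π.β where
  T b := JC (π.m b) (M b).n dA dB
  deq _ := Classical.decEq _
  ne _ := ⟨.inl (.inr 0)⟩
  pt := dpt_jc hM dA dB

/-- the sites -/
@[reducible] noncomputable def tfQ (g : GP π) : TF EOL where
  T I := Site (Gam (π.m (π.par I))) (g.H.T (π.par I))
  pt := dpt_elems_prod (dpt_gam π)
    (dpt_elems_prod (g.H.pt.comp π.ptPar) (g.H.pt.comp π.ptPar))

theorem ql_site (g : GP π) : QL fun I => Fintype.card ((tfQ g).T I) := by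
  obtain ⟨d, hd⟩ := g.H.pbd_card
  have h1 : PL fun I => Fintype.card (g.H.T (π.par I)) :=
    ((π.plPar.add (PL.const 2)).pow d).mono fun I => hd _
  refine (π.ql.mul (h1.mul h1)).mono fun I => le_of_eq ?_
  rw [Fintype.card_prod, Fintype.card_prod, card_vec, ZMod.card, Fintype.card_fin]

theorem dpt_stS (hM : GMOk π nc M pub dec) (hν : NavPT ν) (dA dB : ℕ) :
    DPT fun b => (stS : Sy (M b) (ν b) dA dB) := by
  have hR : PTRing fun b => ZMod (π.p b) := PTRing.zmod π.ptp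
  refine dpt_vecMk (dpt_ji hM hν dA dB)
    (dpt_sumCases (F := fun b j => (stS : Sy (M b) (ν b) dA dB) j)
      (dpt_sumCases (F := fun b j => (stS : Sy (M b) (ν b) dA dB) (.inl j)) ?_ ?_) ?_)
  · exact DPT.ite (DPr.eq DPT.ssnd ((DPT.const _).pair (dpt_fin_of_val (DPT.const 0))))
      (hR.one.comp DPT.id.sfst) (hR.zero.comp DPT.id.sfst)
  · refine dpt_cases (V := fun x : Σ b, Fin 2 × Fin (nc b) => ZMod (π.p x.1)) DPT.ssnd.fst
      (f := fun i x => (![(M x.1).st, 0] : Fin 2 → Vec _ _) i x.2.2) fun i => ?_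
    match i with
    | 0 =>
      exact dpt_vecAt ((dpt_elems_fin hM.ptc hM.pbc).comp DPT.id.sfst) (hM.st.comp DPT.id.sfst)
        DPT.ssnd.snd
    | 1 => exact hR.zero.comp DPT.id.sfst
  · exact hR.zero.comp DPT.id.sfst

theorem dpt_cstS (hM : GMOk π nc M pub dec) {dA dB : ℕ}
    {μ : ∀ I, Mem (Gam (π.m (π.par I))) (g.H.T (π.par I)) (ZMod (π.p (π.par I))) dA dB}
    {en : ∀ I, Vec (Gam (π.m (π.par I))) (ZMod (π.p (π.par I))) →
      Site (Gam (π.m (π.par I))) (g.H.T (π.par I)) → View dA dB (ZMod (π.p (π.par I)))}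
    (hA : DPT fun I => (μ I).yA) (hB : DPT fun I => (μ I).yB)
    (hen : ∀ i j, DPT fun x : Σ I, Vec (Gam (π.m (π.par I))) (ZMod (π.p (π.par I))) ×
      Site (Gam (π.m (π.par I))) (g.H.T (π.par I)) => en x.1 x.2.1 x.2.2 i j) :
    DPT fun x : Σ I, (tfQ g).T I => (cstS (μ x.1) (en x.1) (pub x.1) x.2 : Cs (M _) dA dB) := by
  have hR : PTRing fun b => ZMod (π.p b) := PTRing.zmod π.ptp
  have h0 : DPT fun x : Σ I, (tfQ g).T I => π.par x.1 := π.ptPar.comp DPT.id.sfst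
  refine dpt_vecMk ((dpt_jc hM dA dB).comp h0)
    (dpt_sumCases (F := fun (x : Σ I, (tfQ g).T I) j =>
      (cstS (μ x.1) (en x.1) (pub x.1) x.2 : Cs (M _) dA dB) j)
      (dpt_sumCases (F := fun (x : Σ I, (tfQ g).T I) j =>
        (cstS (μ x.1) (en x.1) (pub x.1) x.2 : Cs (M _) dA dB) (.inl j)) ?_ ?_) ?_)
  · exact DPT.ite (DPr.eq (dpt_vecEnt (dpt_fm h0) DPT.ssnd.fst) (DPT.const _))
      (hR.zero.comp (h0.comp DPT.id.sfst)) (hR.one.comp (h0.comp DPT.id.sfst))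
  · refine dpt_cases (V := fun x : Σ x : (Σ I, (tfQ g).T I), Fin 2 => ZMod (π.p (π.par x.1.1)))
      DPT.ssnd (f := fun i x => ![(μ x.1.1).yA, (μ x.1.1).yB] i) fun i => ?_
    match i with
    | 0 => exact hA.comp DPT.id.sfst.sfst
    | 1 => exact hB.comp DPT.id.sfst.sfst
  · refine dpt_cases (V := fun x : Σ x : (Σ I, (tfQ g).T I),
        Fin (M (π.par x.1)).n × Fin (dA + 1) × Fin (dB + 1) => ZMod (π.p (π.par x.1.1)))
      DPT.ssnd.snd (f := fun i x => en x.1.1 (pub x.1.1 x.2.1) x.1.2 i.1 i.2) fun i => ?_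
    refine DPT.fn2 (fun I y v => en I y v i.1 i.2) (hen i.1 i.2) DPT.id.sfst.sfst ?_
      (DPT.ssnd.comp DPT.id.sfst)
    exact dpt_vecMk ((dpt_gam π).comp DPT.id.sfst.sfst) (DPT.fn2 pub hM.ptPub DPT.id.sfst.sfst.sfst
      ((dpt_finVal DPT.ssnd.fst).comp DPT.id.sfst) DPT.ssnd)

theorem dpt_clk (hM : GMOk π nc M pub dec) (hν : NavPT ν) (dA dB : ℕ) :
    DPT fun x : Σ b, Sy (M b) (ν b) dA dB => x.2.clk := by
  have hR : PTRing fun b => ZMod (π.p b) := PTRing.zmod π.ptp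
  have h1 : DPT fun y : Σ x : (Σ b, Sy (M b) (ν b) dA dB),
      {τ // τ ∈ elems (Ck (NN (M x.1) (ν x.1)))} => y.1.2 (.inl (.inl y.2.1)) :=
    dpt_vecAt ((dpt_ji hM hν dA dB).comp DPT.id.sfst.sfst) (DPT.ssnd.comp DPT.id.sfst)
      (dpt_inl (dpt_inl DPT.ssnd.val))
  exact DPT.optGetD (DPT.find? ((dpt_ck hM hν).comp DPT.id.sfst)
    (@DPT.decide _ _ _ (fun _ => _) (DPr.ne h1 (hR.zero.comp DPT.id.sfst.sfst))))
    ((DPT.const _).pair (dpt_fin_of_val (DPT.const 0)))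

/-- words -/
abbrev Wd (g : GP π) (M : ∀ b, GM (π.m b) (nc b) (ZMod (π.p b)))
    (ν : ∀ b, Nav (π.m b) g.a (g.H.T b)) (dA dB : ℕ) : Type :=
  Σ I, Vec ((tfQ g).T I) (Sy (M (π.par I)) (ν (π.par I)) dA dB)

theorem dpt_decS (hM : GMOk π nc M pub dec) (hν : NavPT ν) (dA dB : ℕ) :
    DPT fun x : Wd g M ν dA dB => dec x.1 ((x.2 (0, 1, 1)).kp (bankS x.2)) (readS x.2) := by
  have h0 : DPT fun x : Wd g M ν dA dB => π.par x.1 := π.ptPar.comp DPT.id.sfst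
  have h1 : DPT fun x : Wd g M ν dA dB => x.2 (0, 1, 1) :=
    dpt_vecAt ((tfQ g).pt.comp DPT.id.sfst) DPT.ssnd
      ((dpt_zero h0).pair ((g.ptOne.comp h0).pair (g.ptOne.comp h0)))
  have h2 : DPT fun x : Wd g M ν dA dB => (x.2 (0, 1, 1)).clk :=
    (dpt_clk hM hν dA dB).comp (DPT.smk h0 h1)
  have h3 : DPT fun x : Wd g M ν dA dB => bankS x.2 :=
    DPT.ite (DPr.eq h2.fst (DPT.const _)) (DPT.const _) (DPT.const _)
  have h4 : DPT fun y : Σ x : Wd g M ν dA dB, Fin (nc (π.par x.1)) =>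
      y.1.2 (0, 1, 1) (.inl (.inr (bankS y.1.2, y.2))) :=
    dpt_vecAt ((dpt_ji hM hν dA dB).comp (h0.comp DPT.id.sfst)) (h1.comp DPT.id.sfst)
      (dpt_inl (dpt_inr ((h3.comp DPT.id.sfst).pair DPT.ssnd)))
  have h5 : DPT fun y : Σ y : (Σ x : Wd g M ν dA dB, Fin (M (π.par x.1)).k),
      Gam (π.m (π.par y.1.1)) => π.par y.1.1.1 := h0.comp DPT.id.sfst.sfst
  have h6 : DPT fun y : Σ y : (Σ x : Wd g M ν dA dB, Fin (M (π.par x.1)).k),
      Gam (π.m (π.par y.1.1)) => y.1.1.2 (y.2, 1, 1) :=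
    dpt_vecAt ((tfQ g).pt.comp DPT.id.sfst.sfst.sfst) (DPT.ssnd.comp DPT.id.sfst.sfst)
      (DPT.ssnd.pair ((g.ptOne.comp h5).pair (g.ptOne.comp h5)))
  have h7 : DPT fun y : Σ y : (Σ x : Wd g M ν dA dB, Fin (M (π.par x.1)).k),
      Gam (π.m (π.par y.1.1)) => y.1.1.2 (y.2, 1, 1) (.inr ((bankS y.1.1.2,
        ⟨y.1.2, y.1.2.2.trans_le (hM.ok y.1.1.1).le⟩, 1), Fin.last dA, Fin.last dB)) :=
    dpt_vecAt ((dpt_ji hM hν dA dB).comp h5) h6 (dpt_inr (DPT.pair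
      (DPT.pair (h3.comp DPT.id.sfst.sfst) (DPT.pair
        (dpt_finMk (dpt_finVal (DPT.ssnd.comp DPT.id.sfst))) (g.ptOne.comp h5))) (DPT.const _)))
  have h8 : DPT (β := fun y : Σ x : Wd g M ν dA dB, Fin (M (π.par x.1)).k =>
      Vec (Gam (π.m (π.par y.1.1))) (ZMod (π.p (π.par y.1.1)))) fun y => readS y.1.2 y.2 := by
    refine dpt_vecMk ((dpt_gam π).comp DPT.id.sfst.sfst) (h7.congr fun y => ?_)
    unfold readS Sy.vwN
    rw [dif_pos (y.1.2.2.trans_le (hM.ok y.1.1.1).le)]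
    rfl
  have h9 : DPT (β := fun x : Wd g M ν dA dB => Vec (Fin (M (π.par x.1)).k)
      (Vec (Gam (π.m (π.par x.1))) (ZMod (π.p (π.par x.1))))) fun x => readS x.2 :=
    dpt_vecMk (T := fun x : Wd g M ν dA dB =>
      Vec (Gam (π.m (π.par x.1))) (ZMod (π.p (π.par x.1))))
      ((dpt_elems_fin hM.ptk hM.pbk).comp h0) h8
  exact DPT.fn2 dec hM.ptDec DPT.id.sfst (dpt_vecMk ((dpt_elems_fin hM.ptc hM.pbc).comp h0) h4) h9

theorem dpt_reindex {β : Type} [Enc β] {U V T : β → Type} [∀ b, Enc (U b)] [∀ b, Enc (V b)]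
    [∀ b, Enc (T b)] {R : Type} [Fintype R] {f : ∀ b, U b → (R → V b) → T b}
    (hf : DPT fun x : Σ b, U b × (R → V b) => f x.1 x.2.1 x.2.2) :
    DPT fun x : Σ b, U b × (Fin (Fintype.card R) → V b) =>
      f x.1 x.2.1 fun r => x.2.2 (Fintype.equivFin R r) :=
  DPT.fn2 f hf DPT.id.sfst DPT.ssnd.fst (dpt_piMk fun _ => dpt_piAt DPT.ssnd.snd _)

end Fam

end Asm

open Asm in
theorem pasm : PAsm := by
  classical
  rintro ⟨e, D, hD, hG⟩ hMP hE hGM hC ⟨lB0, hlB, hS⟩ hSt hN ⟨l, h0, hl, hh0, hK⟩ hDi hP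
  obtain ⟨lB, b0, b1, b2, b3⟩ : ∃ lB : ℝ, 0 < lB ∧ lB ≤ lB0 ∧ lB ≤ l ∧ lB ≤ 1 / 100 :=
    ⟨min lB0 (min l (1 / 100)), by positivity, min_le_left _ _,
      (min_le_right _ _).trans (min_le_left _ _), (min_le_right _ _).trans (min_le_right _ _)⟩
  obtain ⟨lA0, hlA, hS⟩ := hS (D lB)
  obtain ⟨lA, a0, a1, a2, a3⟩ : ∃ lA : ℝ, 0 < lA ∧ lA ≤ lA0 ∧ lA ≤ l ∧ lA ≤ 1 / 100 :=
    ⟨min lA0 (min l (1 / 100)), by positivity, min_le_left _ _,
      (min_le_right _ _).trans (min_le_left _ _), (min_le_right _ _).trans (min_le_right _ _)⟩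
  obtain ⟨e', hMP⟩ := hMP e (D lA) (D lB) (hD _) (hD _)
  obtain ⟨π, nc, M, pub, dec, hL, hM⟩ := hGM e'
  obtain ⟨g, hg, hG⟩ := hG π
  obtain ⟨SA, pA, sA⟩ := hG lA a0
  obtain ⟨SB, pB, sB⟩ := hG lB b0
  obtain ⟨yA, yB, en, qA, qB, qE, hMP⟩ := hMP π g hg hL SA SB pA pB
  obtain ⟨ν, n1, n2, n3, n4, n5, n6⟩ := hN π g
  have hν : NavPT ν := ⟨fun b => (n1 b).2.1, fun b => (n1 b).2.2, n2, n3, n4, n5, n6⟩
  obtain ⟨θ0, C, t0, c0, hS⟩ := hS (D lA) g.a g.γ g.pos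
  obtain ⟨θ, u0, u1, u2⟩ : ∃ θ : ℝ, 0 < θ ∧ θ ≤ θ0 ∧ C * θ ≤ h0 / 4 := by
    refine ⟨min θ0 (h0 / 4 / (C + 1)), by positivity, min_le_left _ _,
      (mul_le_mul_of_nonneg_left (min_le_right _ _) c0).trans ?_⟩
    rw [← mul_div_assoc, div_le_iff₀ (by positivity)]
    nlinarith
  obtain ⟨cor, pC, hK⟩ := hK π g (D lA) (D lB) nc M pub dec ν hM hν
  obtain ⟨pT, pS, pP⟩ := hP π g (D lA) (D lB) nc M pub dec ν hM hν
  obtain ⟨μ, hμ⟩ : ∃ μ : ∀ I, Mem (Gam (π.m (π.par I))) (g.H.T (π.par I)) (ZMod (π.p (π.par I)))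
      (D lA) (D lB), μ = fun I => ⟨SA I, SB I, yA I, yB I⟩ := ⟨_, rfl⟩
  have ok : ∀ I (x y : ℝ), lA ≤ x → lB ≤ y → (μ I).Ok x y := fun I x y hx hy => by
    subst hμ
    exact ⟨hD _, hD _, gspec_mono (sA I) a0.le hx, gspec_mono (sB I) b0.le hy, (hMP I).1,
      (hMP I).2.1⟩
  have std : ∀ I, Std (M (π.par I)) (ν (π.par I)) (μ I) (en I) (pub I) := fun I => by
    subst hμ
    obtain ⟨m1, m2, m3, m4, m5⟩ := hMP I
    obtain ⟨-, e2, e3⟩ := hE _ _ _ _ _ ⟨SA I, SB I, yA I, yB I⟩ m1 m2 (hD _) (hD _) m3 m4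
      (ZMod (π.p (π.par I)))
    exact ⟨hM.ok I, (n1 _).1, m5, fun x X h => e2 x X _ h (m5 x), fun x => e3 x _ (m5 x)⟩
  let ι := Fintype.equivFin (RI g.a (D lA) (D lB))
  let O : TOS π (Fintype.card (RI g.a (D lA) (D lB))) :=
    { J := tfJ hM hν (D lA) (D lB)
      Jc := tfC hM (D lA) (D lB)
      Q := tfQ g
      rd := fun I _ q j => rdS (μ I) (ν _) q (ι.symm j)
      cst := fun I => cstS (μ I) (en I) (pub I)
      st := fun _ _ => stS
      tf := fun b c y => decide (Test (M := M b) (ν := ν b) c fun r => y (ι r))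
      fn := fun b o c y => if o = 2 then sucS (M := M b) (ν := ν b) c fun r => y (ι r) else
        if o = 3 then preS (M := M b) (ν := ν b) c fun r => y (ι r) else cor b c fun r => y (ι r) }
  have k0 : ∀ I (W : _ → Sy (M (π.par I)) (ν (π.par I)) (D lA) (D lB)) q,
      (fun r => W (rdS (μ I) (ν _) q (ι.symm (ι r)))) = fun r => W (rdS (μ I) (ν _) q r) :=
    fun I W q => funext fun r => by rw [Equiv.symm_apply_apply]
  have k1 : ∀ I W q s, ((O.sys I).tst q s).eval noInp W = true ↔ Pass (μ I) (en I) (pub I) W q :=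
    fun I W q _ => decide_eq_true_iff.trans (iff_of_eq (congrArg (Test _) (k0 I W q)))
  have k2 : ∀ I W, (O.sys I).Valid noInp W ↔ ∀ q, Pass (μ I) (en I) (pub I) W q := fun I W =>
    ⟨fun h q => (k1 I W q ()).1 (h q ()), fun h q s => (k1 I W q s).2 (h q)⟩
  have k3 : ∀ I W W', (O.sys I).Step noInp W W' ↔ StepS (μ I) (en I) (pub I) W W' := fun I W W' =>
    and_congr (k2 I W) (and_congr (k2 I W') (and_congr
      ⟨fun h q => (congrArg (sucS _) (k0 I W q)).symm.trans (h q ()),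
        fun h q _ => (congrArg (sucS _) (k0 I W q)).trans (h q)⟩
      ⟨fun h q => (congrArg (preS _) (k0 I W' q)).symm.trans (h q ()),
        fun h q _ => (congrArg (preS _) (k0 I W' q)).trans (h q)⟩))
  have k4 : ∀ I W (t : ℝ), t ≤ θ0 → frac (fun q => ((O.sys I).tst q ()).eval noInp W = false) ≤ t →
      ∃ τ κ x, StOk (M := M (π.par I)) (ν := ν (π.par I)) (pub I) τ κ x ∧
        frac (fun v => W v ≠ wordS (en I) (pub I) τ κ x v) ≤ C * t := fun I W t ht h =>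
    hS _ _ _ _ _ _ (μ I) (en I) (pub I) (std I) (ok I _ _ a1 b1) ((hν.gen _).symm ▸ g.poinc _) W t
      ht ((frac_mono fun q hq => Bool.eq_false_iff.2 fun h => hq ((k1 I W q ()).1 h)).trans h)
  have k5 : ∀ I W, (O.sys I).Valid noInp W →
      ∃ τ κ x, StOk (M := M (π.par I)) (ν := ν (π.par I)) (pub I) τ κ x ∧
        W = wordS (en I) (pub I) τ κ x := fun I W hW => by
    obtain ⟨τ, κ, x, h1, h2⟩ := k4 I W 0 t0.le
      (frac_eq_zero fun q hq => by rw [hW q ()] at hq; exact absurd hq (by simp)).le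
    rw [mul_zero] at h2
    exact ⟨τ, κ, x, h1, funext fun v => not_not.1 (not_of_frac_le_zero h2 v)⟩
  have k6 : ∀ I W, frac (fun q => ((O.sys I).tst q ()).eval noInp W = false) ≤ θ →
      ∃ W', (O.sys I).Valid noInp W' ∧ frac (fun q => W q ≠ W' q) ≤ h0 / 4 := fun I W h => by
    obtain ⟨τ, κ, x, h1, h2⟩ := k4 I W θ u1 h
    exact ⟨_, (k2 I _).2 (hC _ _ _ _ _ _ _ _ _ _ _ _ (std I) τ κ x h1), h2.trans u2⟩
  have k7 : ∀ I j, Bal 1 fun x : (tfQ g).T I × Unit => rdS (μ I) (ν _) x.1 (ι.symm j) :=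
    fun I j => (Bal.of_bijective (Finite.injective_iff_bijective.1 (rdS_inj _ _ _))).comp_one
      Bal.fst
  refine ⟨π, _, O, 1, 1 / 10, θ, h0,
    fun I W => dec I (Sy.kp (W (0, 1, 1)) (bankS W)) (readS W), by norm_num, u0, hh0, fun _ j => ?_,
    ?_, (dpt_stS hM hν _ _).comp (π.ptPar.comp DPT.id.sfst), ?_, fun o => ?_, ql_site g,
    dpt_decS hM hν _ _, fun I => ⟨⟨k7 I, k7 I⟩, k7 I, k7 I, k7 I⟩, fun I => ⟨?_, ?_, ?_⟩, k6,
    fun I => ?_, fun I W hW => ?_⟩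
  · subst hμ
    exact dpt_rdS (π.ptPar.comp DPT.id.sfst) hν (fun i => (pA i).comp DPT.id.sfst)
      (fun i => (pB i).comp DPT.id.sfst) DPT.ssnd _
  · subst hμ
    exact dpt_cstS (μ := fun I => ⟨SA I, SB I, yA I, yB I⟩) hM qA qB qE
  · exact dpt_reindex (f := fun b c y => decide (Test (M := M b) (ν := ν b) c y)) (DPT.decide pT)
  · exact DPT.ite (DPr.const _) (dpt_reindex (f := fun b c y => sucS (M := M b) (ν := ν b) c y) pS)
      (DPT.ite (DPr.const _) (dpt_reindex (f := fun b c y => preS (M := M b) (ν := ν b) c y) pP)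
        (dpt_reindex (f := cor) pC))
  · intro W W' hW hW' hne
    obtain ⟨τ, κ, x, -, rfl⟩ := k5 I W hW
    obtain ⟨τ', κ', x', -, rfl⟩ := k5 I W' hW'
    exact hDi _ _ _ _ _ _ _ _ _ (μ I) _ _ (std I) (ok I _ _ a3 b3) _ _ _ _ _ _ hne
  · intro W h
    obtain ⟨W', h1, h2⟩ := k6 I W ((frac_fst _).symm.trans_le h)
    exact ⟨W', h1, h2.trans (by linarith)⟩
  · intro W hW B hB
    obtain ⟨τ, κ, x, -, rfl⟩ := k5 I W hW
    refine (frac_mono fun q hq => ?_).trans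
      (hK _ (μ I) (en I) (pub I) (std I) (ok I _ _ a2 b2) τ κ x B hB)
    obtain ⟨_, hq⟩ := exists_of_frac_pos (lt_of_lt_of_le (by norm_num) hq)
    by_contra hn
    exact hq fun W' hW' => by_contra fun h =>
      hn ⟨W', hW', fun h' => h ((congrArg (cor _ _) (k0 I W' q)).trans h')⟩
  · obtain ⟨h1, ⟨W, h2⟩, h3, -⟩ := hSt _ _ _ _ _ _ _ _ _ _ _ _ (std I)
    exact ⟨(k2 I _).2 h1, ⟨W, (k3 I _ _).2 h2⟩, fun ⟨W, h⟩ => h3 ⟨W, (k3 I _ _).1 h⟩⟩
  · obtain ⟨τ, κ, x, h1, rfl⟩ := k5 I W hW.1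
    refine hM.ends I _ _ ((hSt _ _ _ _ _ _ _ _ _ _ _ _ (std I)).2.2.2 τ κ x h1 (hW.2.imp
      (fun h ⟨W', h'⟩ => h ⟨W', (k3 I _ _).2 h'⟩) fun h =>
        ⟨h.1, fun ⟨W', h'⟩ => h.2 ⟨W', (k3 I _ _).2 h'⟩⟩))

end Vale.Agent.P330.Outer.Phys
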