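import Vale.Agent.P330.Outer.Phys.Defs
import Vale.Agent.P330.Outer.MemFrame

/-!
P330, outer system: the distance of the words of the states.
-/

set_option linter.unusedSectionVars false

namespace Vale.Agent.P330.Outer.Phys

namespace CorP

variable {m nc a dA dB : ℕ} {F H : Type} [Field F] [Group H] [MulAction H (Fin m)]
  {M : GM m nc F} {ν : Nav m a H} {en : (Gam m → F) → Site (Gam m) H → View dA dB F}
  {pub : ℕ → Gam m → F} {τ : Ck (NN M ν)} {κ : Fin 2 → Vec (Fin nc) F}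
  {x : Fin 2 → Fin M.k → Gam m → F}

theorem wordS_ck (v : Site (Gam m) H) (j : Ck (NN M ν)) :
    wordS en pub τ κ x v (.inl (.inl j)) = if j = τ then 1 else 0 := rfl

theorem wordS_kp (v : Site (Gam m) H) (b : Fin 2) (i : Fin nc) :
    wordS en pub τ κ x v (.inl (.inr (b, i))) = κ b i := rfl

theorem wordS_inl (v v' : Site (Gam m) H) (j : Ck (NN M ν) ⊕ Fin 2 × Fin nc) :
    wordS en pub τ κ x v (.inl j) = wordS en pub τ κ x v' (.inl j) := by
  cases j <;> rfl

theorem wordS_vw (v : Site (Gam m) H) (ρ : Rg M.n H) (i : Fin (dA + 1)) (k : Fin (dB + 1)) :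
    wordS en pub τ κ x v (.inr (ρ, i, k)) =
      (if ord M ν (κ ρ.1) ρ.2.1 ρ.2.2 < cnt M ν τ ρ.1 then
        en (M.reg pub (κ ρ.1) (x ρ.1) ρ.2.1) (tau ρ.2.2⁻¹ v) else 0) i k := rfl

end CorP

open CorP in
theorem pdistStmt (hR : RDistStmt) : PDistStmt := by
  intro m nc a dA dB F H _ _ _ _ M ν μ en pub hS hμ τ κ x τ' κ' x' hne
  by_cases hc : τ = τ' ∧ κ = κ'
  swap
  · have h0 : ∀ v, wordS (M := M) (ν := ν) en pub τ κ x v ≠ wordS en pub τ' κ' x' v := by
      intro v e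
      refine hc ⟨?_, ?_⟩
      · have h1 := congrFun e (.inl (.inl τ))
        rw [wordS_ck, wordS_ck, if_pos rfl] at h1
        by_contra h2
        rw [if_neg h2] at h1
        exact one_ne_zero h1
      · funext b i
        have h1 := congrFun e (.inl (.inr (b, i)))
        rwa [wordS_kp, wordS_kp] at h1
    rw [frac_eq_one h0]
    norm_num
  obtain ⟨rfl, rfl⟩ := hc
  obtain ⟨v, hv⟩ := Function.ne_iff.1 hne
  obtain ⟨j, hj⟩ : ∃ j, wordS (M := M) (ν := ν) en pub τ κ x v j ≠ wordS en pub τ κ x' v j :=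
    Function.ne_iff.1 hv
  rcases j with (j | ⟨b, j⟩) | ⟨ρ, i, k⟩
  · exact absurd (by rw [wordS_ck, wordS_ck]) hj
  · exact absurd (by rw [wordS_kp, wordS_kp]) hj
  rw [wordS_vw, wordS_vw] at hj
  have ho : ord M ν (κ ρ.1) ρ.2.1 ρ.2.2 < cnt M ν τ ρ.1 := by
    by_contra ho
    exact hj (by rw [if_neg ho, if_neg ho])
  rw [if_pos ho, if_pos ho] at hj
  by_contra hlt
  have hA : ∀ y : Gam m → F, μ.ConsOn (fun _ => False) (fun _ => False)
      fun u => en y (tau ρ.2.2⁻¹ u) := fun y =>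
    Fr.consOn_of_cons (Fr.cons_tau (X := en y) (hS.enc y).1 _) _ _
  have h2 : frac (fun u : Site (Gam m) H => ¬ False ∧ ¬ False ∧
      en (M.reg pub (κ ρ.1) (x ρ.1) ρ.2.1) (tau ρ.2.2⁻¹ u) -
        en (M.reg pub (κ ρ.1) (x' ρ.1) ρ.2.1) (tau ρ.2.2⁻¹ u) ≠ 0) < 1 / 10 := by
    refine lt_of_le_of_lt (frac_mono ?_) (not_le.1 hlt)
    intro u hu e
    refine hu.2.2 (sub_eq_zero.2 (funext fun i' => funext fun k' => ?_))
    have h2 := congrFun e (.inr (ρ, i', k'))
    rwa [wordS_vw, wordS_vw, if_pos ho, if_pos ho] at h2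
  have h1 := hR (Gam m) H F dA dB μ hμ F (fun _ => False) (fun _ => False) _
    (fun _ _ _ => by rw [frac_false]; norm_num) (fun _ _ _ => by rw [frac_false]; norm_num)
    (Fr.consOn_sub (hA _) (hA _)) h2 v not_false not_false
  exact hj (congrFun (congrFun (sub_eq_zero.1 h1) i) k)

end Vale.Agent.P330.Outer.Phys
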