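import Vale.Agent.P330.Outer.Phys.CorDec
import Vale.Agent.P330.Outer.Phys.Dist

/-!
P330, outer system: the correction rule.
-/

set_option linter.unusedSectionVars false

namespace Vale.Agent.P330.Outer.Phys

open Vale.Agent.Lib.PolyTime hiding C P
open Vale.Agent.Lib.Dep

namespace CorP

section Math

variable {m nc a dA dB : ℕ} {F H : Type} [Field F] [Group H] [MulAction H (Fin m)]
  {M : GM m nc F} {ν : Nav m a H}

/-- all views of a symbol -/
def views (y : Sy M ν dA dB) : View dA dB (Rg M.n H → F) := fun i j ρ => y (.inr (ρ, i, j))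

/-- the computable decoder from the diagonal neighbours -/
noncomputable def cdecAB {E : Type} [AddCommGroup E] [Module F E] (yA yB : F)
    (nb : Bool × Fin dA → Bool × Fin dB → View dA dB E) : View dA dB E :=
  cdec yA fun e => edgeVal yA
    (View.tr (cdec yB fun e' => edgeVal yB (nb e e').tr (!e'.1, e'.2))) (!e.1, e.2)

theorem cdecAB_eq {E : Type} [AddCommGroup E] [Module F E] {yA yB : F} (hA : Pts dA yA)
    (hB : Pts dB yB) (h0 : 0 < dA) (h1 : 0 < dB)
    (nb : Bool × Fin dA → Bool × Fin dB → View dA dB E) : cdecAB yA yB nb = decAB yA yB nb := by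
  simp only [cdecAB, decAB, decB, cdec_eq hA h0, cdec_eq hB h1]

/-- the correction rule -/
noncomputable def cor (c : Cs M dA dB) (Y : RI a dA dB → Sy M ν dA dB) : Sy M ν dA dB :=
  Vec.of (Sum.elim (fun j => maj fun e => Y (.inr (.inr (.inr (.inr e)))) (.inl j))
    fun x => cdecAB (c.y 0) (c.y 1) (fun e e' => views (Y (.inr (.inr (.inr (.inr (e, e')))))))
      x.2.1 x.2.2 x.1)

variable {μ : Mem (Gam m) H F dA dB} {en : (Gam m → F) → Site (Gam m) H → View dA dB F}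
  {pub : ℕ → Gam m → F}

theorem edgeVal_app {d : ℕ} {K L : Type} (y : F) (P : Fin (d + 1) → K → L → F) (e : Bool × Fin d)
    (k : K) (l : L) : edgeVal y P e k l = edgeVal y (fun i k => P i k l) e k := by
  simp only [edgeVal, Pi.smul_apply, Finset.sum_apply]

theorem cons_pi {L : Type} {X : Site (Gam m) H → View dA dB (L → F)}
    (h : ∀ l, μ.Cons fun v i j => X v i j l) : μ.Cons X := by
  refine fun v => ⟨fun s => ?_, fun s => ?_⟩
  · funext k l
    rw [edgeVal_app, edgeVal_app]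
    exact congrFun ((h l v).1 s) k
  · funext k l
    rw [edgeVal_app, edgeVal_app]
    exact congrFun ((h l v).2 s) k

theorem cons_zero : μ.Cons fun _ => (0 : View dA dB F) := by
  refine fun v => ⟨fun s => ?_, fun s => ?_⟩
  · simp [Mem.EdgeA, edgeVal]
  · have : (0 : View dA dB F).tr = 0 := rfl
    simp [Mem.EdgeB, edgeVal, this]

theorem cons_views (hS : Std M ν μ en pub) (τ : Ck (NN M ν)) (κ : Fin 2 → Vec (Fin nc) F)
    (x : Fin 2 → Fin M.k → Gam m → F) : μ.Cons fun v => views (wordS en pub τ κ x v) := by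
  refine cons_pi fun ρ => ?_
  have e : (fun v i j => views (wordS en pub τ κ x v) i j ρ) = fun v =>
      if ord M ν (κ ρ.1) ρ.2.1 ρ.2.2 < cnt M ν τ ρ.1 then
        en (M.reg pub (κ ρ.1) (x ρ.1) ρ.2.1) (tau ρ.2.2⁻¹ v) else 0 := rfl
  rw [e]
  split_ifs
  · exact Fr.cons_tau (X := en _) (hS.enc _).1 _
  · exact cons_zero

end Math

theorem ent_cdecAB {α : Type} [Enc α] {p : α → ℕ} [∀ a, Fact (p a).Prime] {I : α → Type}
    [∀ a, Enc (I a)] [∀ a, En (I a)] {dA dB : ℕ} (hp : DPT p) (hI : DPT fun a => elems (I a))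
    {yA yB : ∀ a, ZMod (p a)}
    {nb : ∀ a, Bool × Fin dA → Bool × Fin dB → View dA dB (I a → ZMod (p a))} (hA : DPT yA)
    (hB : DPT yB) (hn : ∀ e e' i, Ent (K := Fin (dB + 1)) fun a => nb a e e' i) (i : Fin (dA + 1)) :
    Ent (K := Fin (dB + 1)) fun a => cdecAB (yA a) (yB a) (nb a) i := by
  have h1 : ∀ e e', Ent (K := Fin (dA + 1)) fun a => edgeVal (yB a) (nb a e e').tr (!e'.1, e'.2) :=
    fun e e' => Ent.edgeVal (P := fun a => (nb a e e').tr) hp hB (fun j i => hn e e' i j) _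
  have h2 : ∀ e j, Ent (K := Fin (dA + 1)) fun a =>
      cdec (yB a) (fun e' => edgeVal (yB a) (nb a e e').tr (!e'.1, e'.2)) j :=
    fun e j => Ent.cdec hp hI hB (h1 e) j
  have h3 : ∀ e, Ent (K := Fin (dB + 1)) fun a => edgeVal (yA a)
      (View.tr (cdec (yB a) fun e' => edgeVal (yB a) (nb a e e').tr (!e'.1, e'.2))) (!e.1, e.2) :=
    fun e => Ent.edgeVal (P := fun a =>
      View.tr (cdec (yB a) fun e' => edgeVal (yB a) (nb a e e').tr (!e'.1, e'.2))) hp hA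
      (fun i j => h2 e j i) _
  exact Ent.cdec hp hI hA h3 i

theorem dpt_cor {π : Par} {g : GP π} {dA dB : ℕ} {nc : π.β → ℕ}
    {M : ∀ b, GM (π.m b) (nc b) (ZMod (π.p b))} {pub : _} {dec : _}
    {ν : ∀ b, Nav (π.m b) g.a (g.H.T b)} (hM : GMOk π nc M pub dec) (hν : NavPT ν) :
    DPT fun x : Σ b, Cs (M b) dA dB × (RI g.a dA dB → Sy (M b) (ν b) dA dB) =>
      cor x.2.1 x.2.2 := by
  have hN : DPT fun b => elems (Fin (NN (M b) (ν b) + 1)) :=
    dpt_elems_fin ((hM.ptn.natMul hν.ptD).natAdd (DPT.const 1))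
      ((hM.pbn.mul hν.pbD).add (PBd.const 1))
  have h1 : DPT fun b => elems (Ck (NN (M b) (ν b)) ⊕ Fin 2 × Fin (nc b)) :=
    dpt_elems_sum (dpt_elems_prod (DPT.const _) hN)
      (dpt_elems_prod (DPT.const _) (dpt_elems_fin hM.ptc hM.pbc))
  have h2 : DPT fun b => elems (Rg (M b).n (g.H.T b)) :=
    dpt_elems_prod (DPT.const _) (dpt_elems_prod (dpt_elems_fin hM.ptn hM.pbn) g.H.pt)
  have h3 : DPT fun b => elems (JI (NN (M b) (ν b)) (nc b) (M b).n dA dB (g.H.T b)) :=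
    dpt_elems_sum h1 (dpt_elems_prod h2 (DPT.const _))
  have h4 : DPT fun b => elems (JC (π.m b) (M b).n dA dB) :=
    dpt_elems_sum (dpt_elems_sum (dpt_elems_fin π.ptm π.pbm) (DPT.const _))
      (dpt_elems_prod (dpt_elems_fin hM.ptn hM.pbn) (DPT.const _))
  set α : Type := Σ b, Cs (M b) dA dB × (RI g.a dA dB → Sy (M b) (ν b) dA dB) with hα
  have c1 : DPT fun x : α => x.1 := DPT.id.sfst
  have hp : DPT fun x : α => π.p x.1 := π.ptp.comp c1
  have hY : ∀ r, DPT fun x : α => x.2.2 r := fun r => dpt_piAt DPT.ssnd.snd r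
  have hy : ∀ i, DPT fun x : α => x.2.1.y i := fun i =>
    dpt_vecAt (V := fun x : α => JC (π.m x.1) (M x.1).n dA dB) (h4.comp c1) DPT.ssnd.fst
      (dpt_inl (dpt_inr (DPT.const i)))
  have hv : ∀ r i, Ent (K := Fin (dB + 1)) fun x : α => views (x.2.2 r) i := fun r i j =>
    dpt_vecAt (V := fun z : Σ x : α, Rg (M x.1).n (g.H.T x.1) =>
      JI (NN (M z.1.1) (ν z.1.1)) (nc z.1.1) (M z.1.1).n dA dB (g.H.T z.1.1))
      (h3.comp (c1.comp DPT.id.sfst)) ((hY r).comp DPT.id.sfst)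
      (dpt_inr (DPT.ssnd.pair (DPT.const (i, j))))
  have hAB : ∀ i, Ent (K := Fin (dB + 1)) fun x : α => cdecAB (x.2.1.y 0) (x.2.1.y 1)
      (fun e e' => views (x.2.2 (.inr (.inr (.inr (.inr (e, e'))))))) i :=
    ent_cdecAB hp (h2.comp c1) (hy 0) (hy 1) fun e e' i => hv _ i
  refine dpt_vecOf (h3.comp c1) (dpt_sumCases (U := fun (x : α) _ => ZMod (π.p x.1))
    (F := fun (x : α) s => cor x.2.1 x.2.2 s) ?_ ?_)
  · refine dpt_maj (hp.comp DPT.id.sfst) fun e => ?_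
    exact dpt_vecAt (V := fun z : Σ x : α, Ck (NN (M x.1) (ν x.1)) ⊕ Fin 2 × Fin (nc x.1) =>
      JI (NN (M z.1.1) (ν z.1.1)) (nc z.1.1) (M z.1.1).n dA dB (g.H.T z.1.1))
      (h3.comp (c1.comp DPT.id.sfst)) ((hY _).comp DPT.id.sfst) (dpt_inl DPT.ssnd)
  · refine dpt_cases (f := fun (ij : Fin (dA + 1) × Fin (dB + 1))
      (z : Σ x : α, Rg (M x.1).n (g.H.T x.1) × Fin (dA + 1) × Fin (dB + 1)) =>
      cdecAB (z.1.2.1.y 0) (z.1.2.1.y 1)
        (fun e e' => views (z.1.2.2 (.inr (.inr (.inr (.inr (e, e'))))))) ij.1 ij.2 z.2.1)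
      DPT.ssnd.snd fun ij => ?_
    exact DPT.comp (f := fun z : Σ x : α, Rg (M x.1).n (g.H.T x.1) × Fin (dA + 1) × Fin (dB + 1) =>
      (⟨z.1, z.2.1⟩ : Σ x : α, Rg (M x.1).n (g.H.T x.1))) (hAB ij.1 ij.2)
      (DPT.smk DPT.id.sfst DPT.ssnd.fst)

end CorP

open CorP in
theorem pcorStmt (hC : MCorStmt) : PCorStmt := by
  obtain ⟨l, h0, hl, hh, hC⟩ := hC
  refine ⟨l, h0, hl, hh, fun π g dA dB nc M pub dec ν hM hν =>
    ⟨fun b => cor, dpt_cor hM hν, fun b μ en pb hS hμ τ κ x B hB => ?_⟩⟩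
  refine le_trans (frac_mono ?_) (hC _ _ _ dA dB μ hμ _ _ (cons_views hS τ κ x) B hB)
  rintro v ⟨W, hW, hne⟩
  by_contra hc
  rw [not_or, not_le] at hc
  obtain ⟨hc1, hc2⟩ := hc
  have : Nonempty (Fin dA) := ⟨⟨0, hμ.posA⟩⟩
  have : Nonempty (Fin dB) := ⟨⟨0, hμ.posB⟩⟩
  refine hne (funext fun j => ?_)
  rcases j with j | ⟨ρ, i, k⟩
  · refine maj_eq (lt_of_le_of_lt (frac_mono ?_) hc2)
    intro e he
    by_contra hb
    refine he ?_
    have h1 := hW _ hb
    exact (congrFun h1 (.inl j)).trans (wordS_inl _ _ j)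
  · have h1 : decAB μ.yA μ.yB
        (fun e e' => views (W (mvB (gen2 μ.SB e') (mvA (gen2 μ.SA e) v)))) =
        views (wordS en pb τ κ x v) := by
      by_contra h2
      exact hc1 ⟨fun u => views (W u), fun u hu => congrArg views (hW u hu), h2⟩
    rw [← cdecAB_eq hμ.ptsA hμ.ptsB hμ.posA hμ.posB] at h1
    exact congrFun (congrFun (congrFun h1 i) k) ρ

end Vale.Agent.P330.Outer.Phys
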