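import Vale.Agent.P330.Outer.Phys.Defs

/-!
P330, outer system: the test and the rules of the physical system are computable in polynomial
time.
-/

namespace Vale.Agent.P330.Outer.Phys

open Vale.Agent.Lib.PolyTime hiding C P
open Vale.Agent.Lib.Dep
open Vale.Agent.P330.Bohr

section Pi

variable {α : Type} [Enc α] {S : Type} [Fintype S] {T : α → Type} [∀ a, Enc (T a)]

instance encInjPi {S T : Type} [Fintype S] [Enc T] [EncInj T] : EncInj (S → T) := ⟨fun f g h => by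
  have h1 : (Finset.univ.toList : List S).map f = (Finset.univ.toList : List S).map g :=
    EncInj.inj (α := List T) h
  funext s
  exact List.map_inj_left.1 h1 s (Finset.mem_toList.2 (Finset.mem_univ s))⟩

theorem dpt_sv (p : α → Prop) : DPT fun x : {a // p a} => x.1 :=
  DPT.val (p := fun _ => p) (f := fun x => x) DPT.id

variable {R : α → Type} [∀ a, CommRing (R a)] [∀ a, Code (R a)] {dA dB d : ℕ}

theorem dpt_view {f : ∀ a, View dA dB (R a)} (h : ∀ i j, DPT fun a => f a i j) : DPT f :=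
  dpt_piMk fun i => dpt_piMk fun j => h i j

theorem dpt_viewAt {f : ∀ a, View dA dB (R a)} (h : DPT f) (i : Fin (dA + 1)) (j : Fin (dB + 1)) :
    DPT fun a => f a i j := dpt_piAt (dpt_piAt h i) j

theorem dpt_viewZero (hR : PTRing R) : DPT fun a => (0 : View dA dB (R a)) :=
  dpt_view fun _ _ => DPT.zero hR

theorem dpt_viewTr {f : ∀ a, View dA dB (R a)} (h : DPT f) : DPT fun a => (f a).tr :=
  dpt_view fun j i => dpt_viewAt h i j

theorem dpt_viewSmul (hR : PTRing R) {c : ∀ a, R a} {f : ∀ a, View dA dB (R a)} (hc : DPT c)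
    (h : DPT f) : DPT fun a => c a • f a :=
  dpt_view fun i j => DPT.mul hR hc (dpt_viewAt h i j)

theorem dpt_viewSum (hR : PTRing R) {l : ∀ a, List (View dA dB (R a))} (h : DPT l) :
    DPT fun a => (l a).sum :=
  dpt_view fun i j => (DPT.sum hR (DPT.map (f := fun _ v => v i j) h
    (dpt_viewAt DPT.ssnd.val i j))).congr fun a => by
      rw [Pi.list_sum_apply, Pi.list_sum_apply, List.map_map]
      rfl

theorem dpt_finSum (hR : PTRing R) {n : ℕ} {f : ∀ a, Fin n → R a} (h : ∀ i, DPT fun a => f a i) :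
    DPT fun a => ∑ i, f a i :=
  (DPT.sum hR (dpt_ofFn (dpt_piMk h))).congr fun _ => List.sum_ofFn

end Pi

theorem dpt_edgeVal {α : Type} [Enc α] {R : α → Type} [∀ a, Field (R a)] [∀ a, Code (R a)]
    {dA dB : ℕ} (hR : PTRing R) {y : ∀ a, R a} {f : ∀ a, View dA dB (R a)} (hy : DPT y)
    (h : DPT f) (e : Bool × Fin dA) : DPT fun a => edgeVal (y a) (f a) e := by
  refine dpt_piMk fun j => ?_
  have h1 : DPT fun a => (if e.1 then y a else 1) * ∑ i : Fin (dA + 1),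
      (((if e.1 then dA + e.2 else e.2 : ℕ) ^ (i : ℕ) : ℕ) : R a) * f a i j :=
    DPT.mul hR (DPT.ite (DPr.const _) hy (DPT.one hR)) (dpt_finSum hR fun i =>
      DPT.mul hR (DPT.natCast hR (DPT.const _)) (dpt_viewAt h i j))
  refine h1.congr fun a => ?_
  simp only [edgeVal, Finset.sum_apply, Pi.smul_apply, smul_eq_mul, Nat.cast_pow]

section Eqs

variable {m nc a dA dB : ℕ} {F H : Type} [Field F] [Group H] [MulAction H (Fin m)]
  {M : GM m nc F} {ν : Nav m a H}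

omit [Field F] [MulAction H (Fin m)] in
theorem frame0_elim (κ : Vec (Fin nc) F) (i : ℕ) : frame0 M ν κ i = if i < M.k then 1 else
    Sum.elim (fun _ => 1) (fun t => Sum.elim (fun z => (ν.fr z.1).2) (fun _ => 1) t) (M.ins κ i) := by
  unfold frame0
  rcases M.ins κ i with _ | _ | _ <;> rfl

omit [MulAction H (Fin m)] in
theorem defV_elim (c : Cs M dA dB) (Y : RI a dA dB → Sy M ν dA dB) (ph : Fin 3) (κ : Vec (Fin nc) F)
    (b : Fin 2) (i : ℕ) (h : H) : defV c Y ph κ b i h =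
    (ν.par (h * (frame0 M ν κ i)⁻¹)).elim
      (if i < M.k then srcV (Y (.inl ())) ph b i else
        Sum.elim (fun l => (l.map fun x => if x.2 < i then x.1 • (Y (.inl ())).vwN b x.2 1 else 0).sum)
          (fun t => Sum.elim (fun x =>
            if x.2 < i then (Y (.inr (.inr (.inr (.inl (ν.fr x.1).1))))).vwN b x.2 h else 0)
            (fun l => c.pub l) t) (M.ins κ i))
      fun s => (Y (.inr (.inr (.inl (1, s))))).vwN b i ((ν.gen s)⁻¹ * h) := by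
  unfold defV
  rcases ν.par (h * (frame0 M ν κ i)⁻¹) with _ | _
  · rcases M.ins κ i with _ | _ | _ <;> rfl
  · rfl

omit [MulAction H (Fin m)] in
theorem test_iff_and (c : Cs M dA dB) (Y : RI a dA dB → Sy M ν dA dB) : Test c Y ↔
    (∀ τ, (Y (.inl ())).ck τ = if τ = (Y (.inl ())).clk then 1 else 0) ∧
    (∀ s j, Y (.inr (.inl s)) (.inl j) = Y (.inl ()) (.inl j)) ∧
    (∀ s ρ, edgeVal (c.y 0) ((Y (.inl ())).vw ρ) (true, s) =
      edgeVal (c.y 0) ((Y (.inr (.inl (.inl s)))).vw ρ) (false, s)) ∧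
    (∀ s ρ, edgeVal (c.y 1) ((Y (.inl ())).vw ρ).tr (true, s) =
      edgeVal (c.y 1) ((Y (.inr (.inl (.inr s)))).vw ρ).tr (false, s)) ∧
    (∀ ρ : Rg M.n H, (Y (.inl ())).vw ρ =
      if ord M ν ((Y (.inl ())).kp ρ.1) ρ.2.1 ρ.2.2 < cnt M ν (Y (.inl ())).clk ρ.1 then
        defV c Y (Y (.inl ())).clk.1 ((Y (.inl ())).kp ρ.1) ρ.1 ρ.2.1 ρ.2.2 else 0) ∧
    (∀ b, selfB M ν (Y (.inl ())).clk b → ∀ i : Fin M.k, ∀ h s,
      (Y (.inr (.inr (.inl (0, s))))).vwN b i (ν.gen s * h) = (Y (.inl ())).vwN b i h ∧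
      (Y (.inr (.inr (.inl (2, s))))).vwN b i h (Fin.last dA) =
        (Y (.inl ())).vwN b i h (Fin.last dA) ∧
      ((Y (.inr (.inr (.inl (3, s))))).vwN b i h).tr (Fin.last dB) =
        ((Y (.inl ())).vwN b i h).tr (Fin.last dB)) ∧
    (∀ b, selfB M ν (Y (.inl ())).clk b →
      M.rt ((Y (.inl ())).kp b) c.pt ((Y (.inl ())).roots b) = true ∧
        ∀ i : Fin M.n, M.zero ((Y (.inl ())).kp b) i = true → (Y (.inl ())).vwN b i 1 = 0) ∧
    CtlOk c (Y (.inl ())) :=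
  ⟨fun t => ⟨t.hot, t.eqc, t.edgeA, t.edgeB, t.regs, fun b hb i => t.frames b hb i i.2,
    fun b hb => ⟨(t.valid b hb).1, fun i => (t.valid b hb).2 i i.2⟩, t.ctl⟩,
  fun ⟨t1, t2, t3, t4, t5, t6, t7, t8⟩ => ⟨t1, t2, t3, t4, t5, fun b hb i hi => t6 b hb ⟨i, hi⟩,
    fun b hb => ⟨(t7 b hb).1, fun i hi => (t7 b hb).2 ⟨i, hi⟩⟩, t8⟩⟩

end Eqs

/-- The data of a family of instances, with a computed parameter. -/
structure Cx {π : Par} {g : GP π} {nc : π.β → ℕ} (M : ∀ b, GM (π.m b) (nc b) (ZMod (π.p b)))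
    (ν : ∀ b, Nav (π.m b) g.a (g.H.T b)) {κ : Type} [Enc κ] (c : κ → π.β) : Prop where
  gm : ∃ pub dec, GMOk π nc M pub dec
  nav : NavPT ν
  hc : DPT c

namespace Cx

variable {π : Par} {g : GP π} {nc : π.β → ℕ} {M : ∀ b, GM (π.m b) (nc b) (ZMod (π.p b))}
  {ν : ∀ b, Nav (π.m b) g.a (g.H.T b)} {κ : Type} [Enc κ] {c : κ → π.β} {dA dB : ℕ}
  (h : Cx M ν c)

include h

theorem comap {κ' : Type} [Enc κ'] {f : κ' → κ} (hf : DPT f) : Cx M ν fun x => c (f x) :=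
  ⟨h.gm, h.nav, h.hc.comp hf⟩

theorem up {V : κ → Type} [∀ x, Enc (V x)] : Cx M ν fun x : Σ x, V x => c x.1 :=
  h.comap DPT.id.sfst

theorem ring : PTRing fun x => ZMod (π.p (c x)) := PTRing.zmod (π.ptp.comp h.hc)

theorem n : DPT fun x => (M (c x)).n := by
  obtain ⟨_, _, hM⟩ := h.gm
  exact hM.ptn.comp h.hc

theorem nb : PBd fun x => (M (c x)).n := by
  obtain ⟨_, _, hM⟩ := h.gm
  exact pbd_comp hM.pbn h.hc

theorem k : DPT fun x => (M (c x)).k := by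
  obtain ⟨_, _, hM⟩ := h.gm
  exact hM.ptk.comp h.hc

theorem kb : PBd fun x => (M (c x)).k := by
  obtain ⟨_, _, hM⟩ := h.gm
  exact pbd_comp hM.pbk h.hc

theorem st : DPT fun x => (M (c x)).st := by
  obtain ⟨_, _, hM⟩ := h.gm
  exact hM.st.comp h.hc

theorem D : DPT fun x => (ν (c x)).D := h.nav.ptD.comp h.hc

theorem N : DPT fun x => NN (M (c x)) (ν (c x)) := h.n.natMul h.D

theorem Nb : PBd fun x => NN (M (c x)) (ν (c x)) := h.nb.mul (pbd_comp h.nav.pbD h.hc)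

theorem elC : DPT fun x => elems (Fin (nc (c x))) := by
  obtain ⟨_, _, hM⟩ := h.gm
  exact dpt_elems_fin (hM.ptc.comp h.hc) (pbd_comp hM.pbc h.hc)

theorem elM : DPT fun x => elems (Fin (π.m (c x))) :=
  dpt_elems_fin (π.ptm.comp h.hc) (pbd_comp π.pbm h.hc)

theorem elH : DPT fun x => elems (g.H.T (c x)) := g.H.pt' h.hc

theorem elCk : DPT fun x => elems (Ck (NN (M (c x)) (ν (c x)))) :=
  dpt_elems_prod (DPT.const _) (dpt_elems_fin (h.N.natAdd (DPT.const 1)) (h.Nb.add (PBd.const 1)))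

theorem elRg : DPT fun x => elems (Rg (M (c x)).n (g.H.T (c x))) :=
  dpt_elems_prod (DPT.const _) (dpt_elems_prod (dpt_elems_fin h.n h.nb) h.elH)

theorem elJ0 : DPT fun x => elems (Ck (NN (M (c x)) (ν (c x))) ⊕ Fin 2 × Fin (nc (c x))) :=
  dpt_elems_sum h.elCk (dpt_elems_prod (DPT.const _) h.elC)

theorem elJI :
    DPT fun x => elems (JI (NN (M (c x)) (ν (c x))) (nc (c x)) (M (c x)).n dA dB (g.H.T (c x))) :=
  dpt_elems_sum h.elJ0 (dpt_elems_prod h.elRg (DPT.const _))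

theorem elJC : DPT fun x => elems (JC (π.m (c x)) (M (c x)).n dA dB) :=
  dpt_elems_sum (dpt_elems_sum h.elM (DPT.const _))
    (dpt_elems_prod (dpt_elems_fin h.n h.nb) (DPT.const _))

theorem one : DPT fun x => (1 : g.H.T (c x)) := g.ptOne.comp h.hc

theorem mul {u v : ∀ x, g.H.T (c x)} (hu : DPT u) (hv : DPT v) : DPT fun x => u x * v x :=
  DPT.fn2 (fun b (u v : g.H.T b) => u * v) g.ptMul h.hc hu hv

theorem inv {u : ∀ x, g.H.T (c x)} (hu : DPT u) : DPT fun x => (u x)⁻¹ :=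
  DPT.fn (fun b (u : g.H.T b) => u⁻¹) g.ptInv h.hc hu

theorem gen {s : κ → Fin g.a} (hs : DPT s) : DPT fun x => (ν (c x)).gen (s x) :=
  dpt_cases (f := fun s x => (ν (c x)).gen s) hs fun s =>
    ((g.ptGen s).comp h.hc).congr fun x => by rw [h.nav.gen]

theorem zeroC : DPT fun x => (0 : Vec (Fin (nc (c x))) (ZMod (π.p (c x)))) :=
  dpt_vecMk h.elC (DPT.zero h.up.ring)

variable {y : ∀ x, Sy (M (c x)) (ν (c x)) dA dB} {cs : ∀ x, Cs (M (c x)) dA dB}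
  {Y : ∀ x, RI g.a dA dB → Sy (M (c x)) (ν (c x)) dA dB}
  {kk : ∀ x, Vec (Fin (nc (c x))) (ZMod (π.p (c x)))} {i : κ → ℕ} {b : κ → Fin 2}
  {u : ∀ x, g.H.T (c x)} {τ : ∀ x, Ck (NN (M (c x)) (ν (c x)))} {ph : κ → Fin 3}
  {ε : ∀ x, Gam (π.m (c x))} {l : ∀ x, List (ZMod (π.p (c x)))}

theorem ins (hk : DPT kk) (hi : DPT i) : DPT fun x => (M (c x)).ins (kk x) (i x) := by
  obtain ⟨_, _, hM⟩ := h.gm
  exact DPT.fn2 (fun b => (M b).ins) hM.ins h.hc hk hi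

theorem sucR (hk : DPT kk) (hi : DPT i) : DPT fun x => (M (c x)).sucR (kk x) (i x) := by
  obtain ⟨_, _, hM⟩ := h.gm
  exact DPT.fn2 (fun b => (M b).sucR) hM.sucR h.hc hk hi

theorem preR (hk : DPT kk) (hi : DPT i) : DPT fun x => (M (c x)).preR (kk x) (i x) := by
  obtain ⟨_, _, hM⟩ := h.gm
  exact DPT.fn2 (fun b => (M b).preR) hM.preR h.hc hk hi

theorem zero (hk : DPT kk) (hi : DPT i) : DPT fun x => (M (c x)).zero (kk x) (i x) := by
  obtain ⟨_, _, hM⟩ := h.gm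
  exact DPT.fn2 (fun b => (M b).zero) hM.zero h.hc hk hi

theorem rt (hk : DPT kk) (he : DPT ε) (hl : DPT l) :
    DPT fun x => (M (c x)).rt (kk x) (ε x) (l x) := by
  obtain ⟨_, _, hM⟩ := h.gm
  exact DPT.fn3 (fun b => (M b).rt) hM.rt h.hc hk he hl

theorem nxt (hk : DPT kk) (he : DPT ε) (hl : DPT l) :
    DPT fun x => (M (c x)).nxt (kk x) (ε x) (l x) := by
  obtain ⟨_, _, hM⟩ := h.gm
  exact DPT.fn3 (fun b => (M b).nxt) hM.nxt h.hc hk he hl

theorem prv (hk : DPT kk) (he : DPT ε) (hl : DPT l) :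
    DPT fun x => (M (c x)).prv (kk x) (ε x) (l x) := by
  obtain ⟨_, _, hM⟩ := h.gm
  exact DPT.fn3 (fun b => (M b).prv) hM.prv h.hc hk he hl

theorem fr {ω : ∀ x, Fin (π.m (c x))} (hω : DPT ω) : DPT fun x => (ν (c x)).fr (ω x) :=
  DPT.fn (fun b => (ν b).fr) h.nav.fr h.hc hω

theorem dep (hu : DPT u) : DPT fun x => (ν (c x)).dep (u x) :=
  DPT.fn (fun b => (ν b).dep) h.nav.dep h.hc hu

theorem par (hu : DPT u) : DPT fun x => (ν (c x)).par (u x) :=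
  DPT.fn (fun b => (ν b).par) h.nav.par h.hc hu

theorem ent {j : ∀ x, JI (NN (M (c x)) (ν (c x))) (nc (c x)) (M (c x)).n dA dB (g.H.T (c x))}
    (hy : DPT y) (hj : DPT j) : DPT fun x => y x (j x) := dpt_vecAt h.elJI hy hj

theorem ck (hy : DPT y) (hτ : DPT τ) : DPT fun x => (y x).ck (τ x) :=
  h.ent hy (dpt_inl (dpt_inl hτ))

theorem kp (hy : DPT y) (hb : DPT b) : DPT fun x => (y x).kp (b x) :=
  dpt_vecMk h.elC (h.up.ent (y := fun x => y x.1) (hy.comp DPT.id.sfst)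
    (dpt_inl (dpt_inr ((hb.comp DPT.id.sfst).pair DPT.ssnd))))

theorem vw {ρ : ∀ x, Rg (M (c x)).n (g.H.T (c x))} (hy : DPT y) (hρ : DPT ρ) :
    DPT fun x => (y x).vw (ρ x) :=
  dpt_view fun i j => h.ent hy (dpt_inr (hρ.pair (DPT.const (i, j))))

theorem vwN (hy : DPT y) (hb : DPT b) (hi : DPT i) (hu : DPT u) :
    DPT fun x => (y x).vwN (b x) (i x) (u x) := by
  have h1 := dpt_sv fun x => i x < (M (c x)).n
  exact dpt_dite (DPr.lt hi h.n) ((h.comap h1).vw (hy.comp h1)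
      ((hb.comp h1).pair ((dpt_finMk (hi.comp h1)).pair (hu.comp h1))))
    (dpt_viewZero (h.comap (dpt_sv _)).ring)

theorem clk (hy : DPT y) : DPT fun x => (y x).clk := by
  have h1 : DPr fun x : Σ x, Ck (NN (M (c x)) (ν (c x))) => (y x.1).ck x.2 ≠ 0 :=
    DPr.ne (h.up.ck (hy.comp DPT.id.sfst) DPT.ssnd) (DPT.zero h.up.ring)
  have h2 : DPT fun x => ((0, 0) : Ck (NN (M (c x)) (ν (c x)))) :=
    (DPT.const 0).pair (dpt_fin_of_val (DPT.const 0))
  refine (dpt_firstD (q := fun x τ => (y x).ck τ ≠ 0) h.elCk h1 h2).congr fun x => ?_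
  unfold firstD Sy.clk
  congr
  funext v
  congr

theorem roots (hy : DPT y) (hb : DPT b) : DPT fun x => (y x).roots (b x) :=
  DPT.map (h.n.range h.nb) (dpt_viewAt (h.up.vwN (y := fun x => y x.1) (hy.comp DPT.id.sfst)
    (hb.comp DPT.id.sfst) DPT.ssnd.val h.up.one) _ _)

theorem cent {j : ∀ x, JC (π.m (c x)) (M (c x)).n dA dB} (hs : DPT cs) (hj : DPT j) :
    DPT fun x => cs x (j x) := dpt_vecAt h.elJC hs hj

theorem pt (hs : DPT cs) : DPT fun x => (cs x).pt := by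
  refine dpt_vecMk h.elM ?_
  unfold Cs.pt
  exact @DPT.ite _ _ _ _ _ (_) _ _ (DPr.eq (h.up.cent (hs.comp DPT.id.sfst)
    (dpt_inl (dpt_inl DPT.ssnd))) (DPT.zero h.up.ring)) (DPT.const 0) (DPT.const 1)

theorem cy (hs : DPT cs) (t : Fin 2) : DPT fun x => (cs x).y t :=
  h.cent hs (dpt_inl (dpt_inr (DPT.const t)))

theorem pub (hs : DPT cs) (hi : DPT i) : DPT fun x => (cs x).pub (i x) := by
  have h1 := dpt_sv fun x => i x < (M (c x)).n
  exact dpt_dite (DPr.lt hi h.n)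
    (dpt_view fun s t => (h.comap h1).cent (hs.comp h1)
      (dpt_inr ((dpt_finMk (hi.comp h1)).pair (DPT.const (s, t)))))
    (dpt_viewZero (h.comap (dpt_sv _)).ring)

theorem mkS {K : ∀ x, Fin 2 → Vec (Fin (nc (c x))) (ZMod (π.p (c x)))}
    {w : ∀ x, Rg (M (c x)).n (g.H.T (c x)) → View dA dB (ZMod (π.p (c x)))} (hτ : DPT τ)
    (hK : ∀ b, DPT fun x => K x b) (hw : DPT fun x : Σ x, Rg (M (c x)).n (g.H.T (c x)) => w x.1 x.2) :
    DPT fun x => (mkSy (τ x) (K x) (w x) : Sy (M (c x)) (ν (c x)) dA dB) := by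
  refine dpt_vecMk h.elJI (dpt_sumCases (F := fun x j => mkSy (τ x) (K x) (w x) j)
    (dpt_sumCases (F := fun x j => mkSy (τ x) (K x) (w x) (.inl j)) ?_ ?_) ?_)
  · exact DPT.ite (DPr.eq DPT.ssnd (hτ.comp DPT.id.sfst)) (DPT.one h.up.ring) (DPT.zero h.up.ring)
  · exact dpt_vecAt (f := fun x : Σ x, Fin 2 × Fin (nc (c x)) => K x.1 x.2.1) h.up.elC
      (dpt_cases (f := fun b (x : Σ x, Fin 2 × Fin (nc (c x))) => K x.1 b) DPT.ssnd.fst
        fun b => (hK b).comp DPT.id.sfst) DPT.ssnd.snd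
  · have h1 := DPT.fn w hw (κ := Σ x, Rg (M (c x)).n (g.H.T (c x)) × Fin (dA + 1) × Fin (dB + 1))
      DPT.id.sfst DPT.ssnd.fst
    exact dpt_piApp (dpt_piApp h1 DPT.ssnd.snd.fst) DPT.ssnd.snd.snd

theorem frame0 (hk : DPT kk) (hi : DPT i) :
    DPT fun x => Phys.frame0 (M (c x)) (ν (c x)) (kk x) (i x) := by
  simp only [frame0_elim]
  exact DPT.ite (DPr.lt hi h.k) h.one (dpt_sumElim (h.ins hk hi) h.up.one
    (dpt_sumElim DPT.ssnd (h.up.up.fr DPT.ssnd.fst).snd h.up.up.one))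

theorem ord (hk : DPT kk) (hi : DPT i) (hu : DPT u) :
    DPT fun x => Phys.ord (M (c x)) (ν (c x)) (kk x) (i x) (u x) :=
  (hi.natMul h.D).natAdd (h.dep (h.mul hu (h.inv (h.frame0 hk hi))))

theorem cnt (hτ : DPT τ) (hb : DPT b) : DPT fun x => Phys.cnt (M (c x)) (ν (c x)) (τ x) (b x) := by
  have h0 : DPr fun x => b x = 0 := DPr.eq hb (DPT.const 0)
  have h2 : DPT fun x => ((τ x).2 : ℕ) := dpt_finVal hτ.snd
  exact DPT.ite (DPr.eq hτ.fst (DPT.const 0)) (DPT.ite h0 h2 (DPT.const 0))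
    (DPT.ite (DPr.eq hτ.fst (DPT.const 1)) (DPT.ite h0 h.N h2) (DPT.ite h0 h2 h.N))

omit h in
theorem selfB (hτ : DPT τ) (hb : DPT b) : DPr fun x => Phys.selfB (M (c x)) (ν (c x)) (τ x) (b x) :=
  ((DPr.eq hτ.fst (DPT.const 1)).and (DPr.eq hb (DPT.const 0))).or
    ((DPr.eq hτ.fst (DPT.const 2)).and (DPr.eq hb (DPT.const 1)))

theorem srcV (hy : DPT y) (hp : DPT ph) (hb : DPT b) (hi : DPT i) :
    DPT fun x => Phys.srcV (y x) (ph x) (b x) (i x) := by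
  have h0 : DPr fun x => b x = 0 := DPr.eq hb (DPT.const 0)
  exact DPT.ite (DPr.eq hp (DPT.const 0)) (dpt_viewZero h.ring)
    (DPT.ite (DPr.eq hp (DPT.const 1)) (DPT.ite h0 (h.vwN hy (DPT.const 0) hi h.one)
      (h.vwN hy (DPT.const 0) (h.sucR (h.kp hy (DPT.const 0)) hi) h.one))
    (DPT.ite h0 (h.vwN hy (DPT.const 1) (h.preR (h.kp hy (DPT.const 1)) hi) h.one)
      (h.vwN hy (DPT.const 1) hi h.one)))

theorem defV (hs : DPT cs) (hY : DPT Y) (hp : DPT ph) (hk : DPT kk) (hb : DPT b) (hi : DPT i)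
    (hu : DPT u) : DPT fun x => Phys.defV (cs x) (Y x) (ph x) (kk x) (b x) (i x) (u x) := by
  simp only [defV_elim]
  have h0 : DPT fun x => Y x (.inl ()) := dpt_piAt hY _
  refine dpt_optElim (h.par (h.mul hu (h.inv (h.frame0 hk hi))))
    (DPT.ite (DPr.lt hi h.k) (h.srcV h0 hp hb hi) (dpt_sumElim (h.ins hk hi) ?_
      (dpt_sumElim DPT.ssnd ?_ (h.up.up.pub (hs.comp DPT.id.sfst.sfst) DPT.ssnd)))) ?_
  · refine dpt_viewSum h.up.ring (DPT.map DPT.ssnd ?_)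
    exact DPT.ite (DPr.lt DPT.ssnd.val.snd (hi.comp DPT.id.sfst.sfst))
      (dpt_viewSmul h.up.up.ring DPT.ssnd.val.fst (h.up.up.vwN (h0.comp DPT.id.sfst.sfst)
        (hb.comp DPT.id.sfst.sfst) DPT.ssnd.val.snd h.up.up.one)) (dpt_viewZero h.up.up.ring)
  · exact DPT.ite (DPr.lt DPT.ssnd.snd (hi.comp DPT.id.sfst.sfst))
      (h.up.up.vwN (dpt_piApp (hY.comp DPT.id.sfst.sfst)
        (dpt_inr (dpt_inr (dpt_inr (dpt_inl (h.up.up.fr DPT.ssnd.fst).fst)))))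
        (hb.comp DPT.id.sfst.sfst) DPT.ssnd.snd (hu.comp DPT.id.sfst.sfst))
      (dpt_viewZero h.up.up.ring)
  · exact h.up.vwN (dpt_piApp (hY.comp DPT.id.sfst)
      (dpt_inr (dpt_inr (dpt_inl ((DPT.const 1).pair DPT.ssnd))))) (hb.comp DPT.id.sfst)
      (hi.comp DPT.id.sfst) (h.up.mul (h.up.inv (h.up.gen DPT.ssnd)) (hu.comp DPT.id.sfst))

theorem ctlOk (hs : DPT cs) (hy : DPT y) : DPr fun x => CtlOk (cs x) (y x) := by
  have h1 := h.clk hy
  have k0 := h.kp hy (DPT.const 0)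
  have k1 := h.kp hy (DPT.const 1)
  have hz : DPr fun x => (y x).clk.2 = 0 := DPr.eq h1.snd (dpt_fin_of_val (DPT.const 0))
  exact (dpr_imp (DPr.eq h1.fst (DPT.const 0)) ((DPr.eq k0 h.st).and (DPr.eq k1 h.zeroC))).and
    ((dpr_imp (DPr.eq h1.fst (DPT.const 1)) (DPr.eq k1 (DPT.ite hz h.zeroC
      (h.nxt k0 (h.pt hs) (h.roots hy (DPT.const 0)))))).and
    (dpr_imp (DPr.eq h1.fst (DPT.const 2)) ((DPr.ne k1 h.st).and (DPr.eq k0 (DPT.ite hz h.zeroC
      (h.prv k1 (h.pt hs) (h.roots hy (DPT.const 1))))))))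

theorem test (hs : DPT cs) (hY : DPT Y) : DPr fun x => Test (cs x) (Y x) := by
  simp only [test_iff_and]
  have h0 : DPT fun x => Y x (.inl ()) := dpt_piAt hY _
  have h1 := h.clk h0
  refine DPr.and ?_ (DPr.and ?_ (DPr.and ?_ (DPr.and ?_ (DPr.and ?_ (DPr.and ?_
    (DPr.and ?_ (h.ctlOk hs h0)))))))
  · exact dpr_forall h.elCk (DPr.eq (h.up.ck (h0.comp DPT.id.sfst) DPT.ssnd)
      (DPT.ite (DPr.eq DPT.ssnd (h1.comp DPT.id.sfst)) (DPT.one h.up.ring) (DPT.zero h.up.ring)))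
  · exact dpr_forall_const fun s => dpr_forall h.elJ0 (DPr.eq
      (h.up.ent ((dpt_piAt hY _).comp DPT.id.sfst) (dpt_inl DPT.ssnd))
      (h.up.ent (h0.comp DPT.id.sfst) (dpt_inl DPT.ssnd)))
  · exact dpr_forall_const fun s => dpr_forall h.elRg (DPr.eq
      (dpt_edgeVal h.up.ring ((h.cy hs 0).comp DPT.id.sfst)
        (h.up.vw (h0.comp DPT.id.sfst) DPT.ssnd) _)
      (dpt_edgeVal h.up.ring ((h.cy hs 0).comp DPT.id.sfst)
        (h.up.vw ((dpt_piAt hY _).comp DPT.id.sfst) DPT.ssnd) _))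
  · exact dpr_forall_const fun s => dpr_forall h.elRg (DPr.eq
      (dpt_edgeVal h.up.ring ((h.cy hs 1).comp DPT.id.sfst)
        (dpt_viewTr (h.up.vw (h0.comp DPT.id.sfst) DPT.ssnd)) _)
      (dpt_edgeVal h.up.ring ((h.cy hs 1).comp DPT.id.sfst)
        (dpt_viewTr (h.up.vw ((dpt_piAt hY _).comp DPT.id.sfst) DPT.ssnd)) _))
  · have h2 : DPT fun x : Σ x, Rg (M (c x)).n (g.H.T (c x)) => (Y x.1 (.inl ())).kp x.2.1 :=
      h.up.kp (h0.comp DPT.id.sfst) DPT.ssnd.fst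
    exact dpr_forall h.elRg (DPr.eq (h.up.vw (h0.comp DPT.id.sfst) DPT.ssnd)
      (DPT.ite (DPr.lt (h.up.ord h2 (dpt_finVal DPT.ssnd.snd.fst) DPT.ssnd.snd.snd)
        (h.up.cnt (h1.comp DPT.id.sfst) DPT.ssnd.fst))
        (h.up.defV (hs.comp DPT.id.sfst) (hY.comp DPT.id.sfst) (h1.fst.comp DPT.id.sfst) h2
          DPT.ssnd.fst (dpt_finVal DPT.ssnd.snd.fst) DPT.ssnd.snd.snd) (dpt_viewZero h.up.ring)))
  · refine dpr_forall_const fun b => dpr_imp (selfB h1 (DPT.const b))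
      (dpr_forall (dpt_elems_fin h.k h.kb) (dpr_forall h.up.elH (dpr_forall_const fun s => ?_)))
    have hi : DPT fun x : Σ x : Σ x, Fin (M (c x)).k, g.H.T (c x.1) => (x.1.2 : ℕ) :=
      DPT.comp (g := fun x : Σ x, Fin (M (c x)).k => (x.2 : ℕ)) (dpt_finVal DPT.ssnd) DPT.id.sfst
    have hv : ∀ r, DPT fun x : Σ x : Σ x, Fin (M (c x)).k, g.H.T (c x.1) =>
        (Y x.1.1 r).vwN b x.1.2 x.2 := fun r =>
      h.up.up.vwN ((dpt_piAt hY r).comp DPT.id.sfst.sfst) (DPT.const b) hi DPT.ssnd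
    exact (DPr.eq (h.up.up.vwN ((dpt_piAt hY _).comp DPT.id.sfst.sfst) (DPT.const b) hi
      (h.up.up.mul (h.up.up.gen (DPT.const s)) DPT.ssnd)) (hv _)).and
      ((DPr.eq (dpt_piAt (hv _) _) (dpt_piAt (hv _) _)).and
        (DPr.eq (dpt_piAt (dpt_viewTr (hv _)) _) (dpt_piAt (dpt_viewTr (hv _)) _)))
  · refine dpr_forall_const fun b => dpr_imp (selfB h1 (DPT.const b)) (DPr.and (DPr.eq
      (h.rt (h.kp h0 (DPT.const b)) (h.pt hs) (h.roots h0 (DPT.const b))) (DPT.const true)) ?_)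
    exact dpr_forall (dpt_elems_fin h.n h.nb) (dpr_imp (DPr.eq (h.up.zero
      ((h.kp h0 (DPT.const b)).comp DPT.id.sfst) (dpt_finVal DPT.ssnd)) (DPT.const true))
      (DPr.eq (h.up.vwN (h0.comp DPT.id.sfst) (DPT.const b) (dpt_finVal DPT.ssnd) h.up.one)
        (dpt_viewZero h.up.ring)))

theorem upd (hy : DPT y) (hk : DPT kk) (t s : Fin 2) :
    DPT fun x => Function.update (y x).kp t (kk x) s := by
  by_cases e : s = t
  · subst e
    simpa using hk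
  · simpa [Function.update_of_ne e] using h.kp hy (DPT.const s)

theorem build (hs : DPT cs) (hY : DPT Y) (t : Fin 2) (hk : DPT kk) (hτ : DPT τ) :
    DPT fun x => Phys.build (cs x) (Y x) t (kk x) (τ x) := by
  have h0 : DPT fun x => Y x (.inl ()) := dpt_piAt hY _
  have h1 := h.clk h0
  exact h.mkS hτ (h.upd h0 hk t) (DPT.ite ((DPr.eq DPT.ssnd.fst (DPT.const t)).and
    (DPr.eq (h.up.ord (hk.comp DPT.id.sfst) (dpt_finVal DPT.ssnd.snd.fst) DPT.ssnd.snd.snd)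
      ((dpt_finVal h1.snd).comp DPT.id.sfst)))
    (h.up.defV (hs.comp DPT.id.sfst) (hY.comp DPT.id.sfst) (h1.fst.comp DPT.id.sfst)
      (hk.comp DPT.id.sfst) (DPT.const t) (dpt_finVal DPT.ssnd.snd.fst) DPT.ssnd.snd.snd)
    (h.up.vw (h0.comp DPT.id.sfst) DPT.ssnd))

theorem erase (hy : DPT y) (t : Fin 2) (hk : DPT kk) (hτ : DPT τ) :
    DPT fun x => Phys.erase (y x) t (kk x) (τ x) :=
  h.mkS hτ (h.upd hy hk t) (DPT.ite ((DPr.eq DPT.ssnd.fst (DPT.const t)).and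
    (DPr.eq ((h.up.ord ((h.kp hy (DPT.const t)).comp DPT.id.sfst) (dpt_finVal DPT.ssnd.snd.fst)
      DPT.ssnd.snd.snd).natAdd (DPT.const 1)) ((dpt_finVal (h.clk hy).snd).comp DPT.id.sfst)))
    (dpt_viewZero h.up.ring) (h.up.vw (hy.comp DPT.id.sfst) DPT.ssnd))

theorem swap (hy : DPT y) (hτ : DPT τ) : DPT fun x => Phys.swap (y x) (τ x) :=
  h.mkS hτ (fun t => h.kp hy (DPT.const t.rev)) (h.up.vw (hy.comp DPT.id.sfst)
    ((dpt_finComp Fin.rev DPT.ssnd.fst).pair DPT.ssnd.snd))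

theorem same (hy : DPT y) (hτ : DPT τ) :
    DPT fun x => (mkSy (τ x) (y x).kp (y x).vw : Sy (M (c x)) (ν (c x)) dA dB) :=
  h.mkS hτ (fun t => h.kp hy (DPT.const t)) (h.up.vw (hy.comp DPT.id.sfst) DPT.ssnd)

theorem upc {j : ∀ x, Fin (NN (M (c x)) (ν (c x)) + 1)} (hj : DPT j) : DPT fun x => Phys.up (j x) :=
  dpt_finMk (((dpt_finVal hj).natAdd (DPT.const 1)).natMin h.N)

omit h in
theorem downc {j : ∀ x, Fin (NN (M (c x)) (ν (c x)) + 1)} (hj : DPT j) : DPT fun x => down (j x) :=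
  dpt_finMk ((dpt_finVal hj).natSub (DPT.const 1))

theorem last : DPT fun x => Fin.last (NN (M (c x)) (ν (c x))) := dpt_fin_of_val h.N

omit h in
theorem z0 : DPT fun x => (0 : Fin (NN (M (c x)) (ν (c x)) + 1)) := dpt_fin_of_val (DPT.const 0)

theorem suc (hs : DPT cs) (hY : DPT Y) : DPT fun x => sucS (cs x) (Y x) := by
  have h0 : DPT fun x => Y x (.inl ()) := dpt_piAt hY _
  have h1 := h.clk h0
  have k0 := h.kp h0 (DPT.const 0)
  exact DPT.ite (DPr.eq h1.fst (DPT.const 0))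
    (DPT.ite (DPr.eq h1.snd h.last) (h.same h0 ((DPT.const 1).pair z0))
      (h.build hs hY 0 k0 ((DPT.const 0).pair (h.upc h1.snd))))
    (DPT.ite (DPr.eq h1.fst (DPT.const 1))
      (DPT.ite (DPr.eq h1.snd h.last) (h.same h0 ((DPT.const 2).pair h.last))
        (h.build hs hY 1 (h.nxt k0 (h.pt hs) (h.roots h0 (DPT.const 0)))
          ((DPT.const 1).pair (h.upc h1.snd))))
      (DPT.ite (DPr.eq h1.snd z0) (h.swap h0 ((DPT.const 1).pair z0))
        (h.erase h0 0 (DPT.ite (DPr.eq (downc h1.snd) z0) h.zeroC k0)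
          ((DPT.const 2).pair (downc h1.snd)))))

theorem pre (hs : DPT cs) (hY : DPT Y) : DPT fun x => preS (cs x) (Y x) := by
  have h0 : DPT fun x => Y x (.inl ()) := dpt_piAt hY _
  have h1 := h.clk h0
  have k0 := h.kp h0 (DPT.const 0)
  have k1 := h.kp h0 (DPT.const 1)
  exact DPT.ite (DPr.eq h1.fst (DPT.const 0))
    (DPT.ite (DPr.eq h1.snd z0) h0 (h.erase h0 0 k0 ((DPT.const 0).pair (downc h1.snd))))
    (DPT.ite (DPr.eq h1.fst (DPT.const 1))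
      (DPT.ite (DPr.eq h1.snd z0)
        (@DPT.ite _ _ _ _ _ (_) _ _ (DPr.eq k0 h.st) (h.same h0 ((DPT.const 0).pair h.last))
          (h.swap h0 ((DPT.const 2).pair z0)))
        (h.erase h0 1 (DPT.ite (DPr.eq (downc h1.snd) z0) h.zeroC k1)
          ((DPT.const 1).pair (downc h1.snd))))
      (DPT.ite (DPr.eq h1.snd h.last) (h.same h0 ((DPT.const 1).pair h.last))
        (h.build hs hY 0 (h.prv k1 (h.pt hs) (h.roots h0 (DPT.const 1)))
          ((DPT.const 2).pair (h.upc h1.snd)))))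

end Cx

theorem pptStmt : PPTStmt := by
  intro π g dA dB nc M pub dec ν hM hν
  have h : Cx M ν fun x : Σ b, Cs (M b) dA dB × (RI g.a dA dB → Sy (M b) (ν b) dA dB) => x.1 :=
    ⟨⟨pub, dec, hM⟩, hν, DPT.id.sfst⟩
  exact ⟨h.test DPT.ssnd.fst DPT.ssnd.snd, h.suc DPT.ssnd.fst DPT.ssnd.snd,
    h.pre DPT.ssnd.fst DPT.ssnd.snd⟩

end Vale.Agent.P330.Outer.Phys
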