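import Vale.Agent.P330.Outer.Phys.Word
import Vale.Agent.P330.Outer.MemCor

/-!
P330, outer system: soundness of the test of the physical realisation.
-/

set_option linter.unusedSectionVars false

namespace Vale.Agent.P330.Outer.Phys

namespace Snd

section Pi

variable {Γ H : Type} [AddCommGroup Γ] [Group H] [DistribMulAction H Γ]
variable {F : Type} [Field F] {E : Type} [AddCommGroup E] [Module F E]

theorem edgeVal_pi2 {I J : Type} {d : ℕ} (y : F) (P : Fin (d + 1) → J → I → E)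
    (e : Bool × Fin d) (j : J) (r : I) :
    edgeVal y P e j r = edgeVal y (fun i j => P i j r) e j := by
  rw [Enc.edgeVal_pi, Enc.edgeVal_pi, Enc.edgeVal_pi]

variable {dA dB : ℕ} {μ : Mem Γ H F dA dB} {I : Type}

theorem edgeA_pi (X : Site Γ H → View dA dB (I → E)) (v : Site Γ H) (s : Fin dA) :
    μ.EdgeA X v s ↔ ∀ r, μ.EdgeA (fun v i j => X v i j r) v s := by
  unfold Mem.EdgeA
  constructor
  · intro h r
    funext j
    rw [← edgeVal_pi2, ← edgeVal_pi2, h]
  · intro h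
    funext j r
    rw [edgeVal_pi2, edgeVal_pi2, h r]

theorem edgeB_pi (X : Site Γ H → View dA dB (I → E)) (v : Site Γ H) (s : Fin dB) :
    μ.EdgeB X v s ↔ ∀ r, μ.EdgeB (fun v i j => X v i j r) v s := by
  unfold Mem.EdgeB
  constructor
  · intro h r
    funext j
    have h1 := congrFun (congrFun h j) r
    rw [edgeVal_pi2, edgeVal_pi2] at h1
    exact h1
  · intro h
    funext j r
    rw [edgeVal_pi2, edgeVal_pi2]
    exact congrFun (h r) j

theorem consOn_pi {ZA ZB : H → Prop} (X : Site Γ H → View dA dB (I → E)) :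
    μ.ConsOn ZA ZB X ↔ ∀ r, μ.ConsOn ZA ZB fun v i j => X v i j r :=
  ⟨fun h r v h1 h2 => ⟨fun s hs => (edgeA_pi X v s).1 ((h v h1 h2).1 s hs) r,
      fun s hs => (edgeB_pi X v s).1 ((h v h1 h2).2 s hs) r⟩,
    fun h v h1 h2 => ⟨fun s hs => (edgeA_pi X v s).2 fun r => (h r v h1 h2).1 s hs,
      fun s hs => (edgeB_pi X v s).2 fun r => (h r v h1 h2).2 s hs⟩⟩

theorem isEnc_pi {x : Γ → I → E} {X : Site Γ H → View dA dB (I → E)} (h : μ.IsEnc x X) (r : I) :
    μ.IsEnc (fun ε => x ε r) fun v i j => X v i j r :=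
  ⟨fun v => ⟨fun s => (edgeA_pi X v s).1 ((h.1 v).1 s) r,
    fun s => (edgeB_pi X v s).1 ((h.1 v).2 s) r⟩, fun v => congrFun (h.2 v) r⟩

theorem gspec_mono [Fintype Γ] [Fintype H] {d : ℕ} {l l' : ℝ} {S : Fin d → Γ × H}
    (h : GSpec l S) (h0 : 0 ≤ l) (hl : l ≤ l') : GSpec l' S := fun o f hf =>
  (h o f hf).trans (mul_le_mul_of_nonneg_right (pow_le_pow_left₀ h0 hl 2)
    (mean_nonneg fun _ => sq_nonneg _))

theorem ok_mono [Fintype Γ] [Fintype H] {lA lB lA' lB' : ℝ} (h : μ.Ok lA lB) (hA : 0 ≤ lA)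
    (hB : 0 ≤ lB) (h1 : lA ≤ lA') (h2 : lB ≤ lB') : μ.Ok lA' lB' :=
  ⟨h.posA, h.posB, gspec_mono h.specA hA h1, gspec_mono h.specB hB h2, h.ptsA, h.ptsB⟩

theorem mvB_bij [Finite Γ] [Finite H] (s : Γ × H) :
    Function.Bijective (mvB s : Site Γ H → Site Γ H) :=
  Finite.surjective_iff_bijective.1 fun v => ⟨_, MCor.mvB_ginv s v⟩

theorem shf_bij [Finite Γ] [Finite H] (γ : Γ) :
    Function.Bijective (shf γ : Site Γ H → Site Γ H) :=
  Finite.surjective_iff_bijective.1 fun v => ⟨shf (-γ) v, by simp [shf]⟩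

end Pi

variable {m nc a dA dB : ℕ} {F H : Type} [Field F] [Group H] [Fintype H] [MulAction H (Fin m)]
  {M : GM m nc F} {ν : Nav m a H} {μ : Mem (Gam m) H F dA dB}
  {en : (Gam m → F) → Site (Gam m) H → View dA dB F} {pub : ℕ → Gam m → F}

theorem rdS_bij (r : RI a dA dB) : Function.Bijective fun v => rdS μ ν v r := by
  rcases r with _ | (s | s) | ⟨t, s⟩ | i | e
  · exact Function.bijective_id
  · exact MCor.mvA_bij _
  · exact mvB_bij _
  · fin_cases t
    · exact Fr.tau_bij _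
    · exact Fr.tau_bij _
    · exact MCor.mvA_bij _
    · exact mvB_bij _
  · exact shf_bij _
  · exact (mvB_bij _).comp (MCor.mvA_bij _)

/-- The situation after the test of the controls and the local test of the code. -/
structure Ctx (μ : Mem (Gam m) H F dA dB) (en : (Gam m → F) → Site (Gam m) H → View dA dB F)
    (pub : ℕ → Gam m → F) (W : Site (Gam m) H → Sy M ν dA dB) (τ : Ck (NN M ν))
    (κ : Fin 2 → Vec (Fin nc) F) (ZA ZB : H → Prop)
    (Φ : Rg M.n H → Site (Gam m) H → View dA dB F) (G : Site (Gam m) H → Prop) : Prop where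
  std : Std M ν μ en pub
  ok : μ.Ok (1 / 100) (1 / 100)
  spA : Sparse (1 / 20) μ.SA ZA
  spB : Sparse (1 / 20) μ.SB ZB
  cons : ∀ ρ, μ.ConsOn ZA ZB (Φ ρ)
  pass : ∀ v, G v → Pass μ en pub W v
  clk : ∀ v, G v → (W v).clk = τ
  kp : ∀ v, G v → (W v).kp = κ
  alA : ∀ v, G v → ¬ ZA v.2.1
  alB : ∀ v, G v → ¬ ZB v.2.2
  vw : ∀ v, G v → ∀ ρ, (W v).vw ρ = Φ ρ v
  small : frac (fun v => ¬ ∀ r, G (rdS μ ν v r)) < 1 / 10

namespace Ctx

variable {W : Site (Gam m) H → Sy M ν dA dB} {τ : Ck (NN M ν)} {κ : Fin 2 → Vec (Fin nc) F}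
  {ZA ZB : H → Prop} {Φ : Rg M.n H → Site (Gam m) H → View dA dB F} {G : Site (Gam m) H → Prop}
  (c : Ctx μ en pub W τ κ ZA ZB Φ G)
include c

/-- A register which agrees with a codeword at the very good sites agrees with it at all sites
which are alive. -/
theorem exact (hR : RDistStmt) (ρ : Rg M.n H) {X : Site (Gam m) H → View dA dB F} (hX : μ.Cons X)
    (h : ∀ v, (∀ r, G (rdS μ ν v r)) → Φ ρ v = X v) (v : Site (Gam m) H) (hA : ¬ ZA v.2.1)
    (hB : ¬ ZB v.2.2) : Φ ρ v = X v := by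
  refine sub_eq_zero.1 (hR _ _ _ dA dB μ c.ok F ZA ZB (fun v => Φ ρ v - X v)
    (Fr.sparse_mono c.spA (by norm_num)) (Fr.sparse_mono c.spB (by norm_num))
    (Fr.consOn_sub (c.cons ρ) (Fr.consOn_of_cons hX ZA ZB)) ?_ v hA hB)
  exact (frac_mono fun u hu hg => hu.2.2 (sub_eq_zero.2 (h u hg))).trans_lt c.small

theorem vwN {v : Site (Gam m) H} (hv : G v) (b : Fin 2) {i : ℕ} (hi : i < M.n) (h : H) :
    (W v).vwN b i h = Φ (b, ⟨i, hi⟩, h) v := by
  rw [Sy.vwN_lt _ _ hi, c.vw v hv]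

/-- The registers which are not yet built vanish. -/
theorem absent (ρ : Rg M.n H)
    (ho : ¬ ord M ν (κ ρ.1) ρ.2.1 ρ.2.2 < cnt M ν τ ρ.1) (v : Site (Gam m) H) (hv : G v) :
    (W v).vw ρ = 0 := by
  have h1 := (c.pass v hv).regs ρ
  change (W v).vw ρ = if ord M ν ((W v).kp ρ.1) ρ.2.1 ρ.2.2 < cnt M ν (W v).clk ρ.1 then _
    else 0 at h1
  rw [c.clk v hv, c.kp v hv, if_neg ho] at h1
  exact h1

/-- The registers which are built have the right values. -/
theorem present (hR : RDistStmt) (b : Fin 2) (x : Fin M.k → Gam m → F)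
    (hsrc : ∀ r : Fin M.k, ord M ν (κ b) r 1 < cnt M ν τ b → ∀ v, G v →
      srcV (W v) τ.1 b r = en (x r) v) :
    ∀ i < M.n, ∀ h : H, ord M ν (κ b) i h < cnt M ν τ b → ∀ v, G v →
      (W v).vwN b i h = en (M.reg pub (κ b) x i) (tau h⁻¹ v) := by
  have key : ∀ o : ℕ, ∀ i < M.n, ∀ h : H, ord M ν (κ b) i h = o →
      ord M ν (κ b) i h < cnt M ν τ b → ∀ v, G v →
      (W v).vwN b i h = en (M.reg pub (κ b) x i) (tau h⁻¹ v) := by
    intro o
    induction o using Nat.strong_induction_on with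
    | _ o ih =>
      intro i hi h ho hc v hv
      rw [c.vwN hv b hi]
      refine c.exact hR _ (c.std.cons_tau _ h⁻¹) (fun u hu => ?_) v (c.alA v hv) (c.alB v hv)
      have hu0 : G u := hu (.inl ())
      have h1 := (c.pass u hu0).regs (b, ⟨i, hi⟩, h)
      change (W u).vw (b, ⟨i, hi⟩, h) = if ord M ν ((W u).kp b) i h < cnt M ν (W u).clk b then
        defV (cstS μ en pub u) (fun r => W (rdS μ ν u r)) (W u).clk.1 ((W u).kp b) b i h
        else 0 at h1
      rw [c.clk u hu0, c.kp u hu0, if_pos hc, c.vw u hu0] at h1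
      rw [h1]
      have hlt : ∀ j < i, ∀ h', ord M ν (κ b) j h' < ord M ν (κ b) i h := fun j hj h' =>
        ord_lt_of_lt c.std.nav.lt _ _ hj _ _
      refine defV_eq c.std u _ τ.1 (κ b) x b i h (fun j hj => ?_) (fun s hs => ?_)
        (fun t j hj => ?_) fun hk h1 => ?_
      · have := ih _ (ho ▸ hlt j hj 1) j (hj.trans hi) 1 rfl ((hlt j hj 1).trans hc) u hu0
        rwa [inv_one, Fr.tau_one] at this
      · have h2 := ord_par c.std.nav (κ b) i hs
        exact ih _ (ho ▸ h2) i hi _ rfl (h2.trans hc) _ (hu (.inr (.inr (.inl (1, s)))))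
      · exact ih _ (ho ▸ hlt j hj h) j (hj.trans hi) h rfl ((hlt j hj h).trans hc) _
          (hu (.inr (.inr (.inr (.inl t)))))
      · rw [reg_lt M pub _ x hk]
        exact hsrc ⟨i, hk⟩ (h1 ▸ hc) u hu0
  exact fun i hi h => key _ i hi h rfl

/-- The given registers of the complete bank are encodings. -/
theorem given (hH : HalfStmt) {γ : ℝ} (hγ : 0 < γ) (hP : HPoinc γ ν.gen)
    (hF : ∀ Ψ : H → Site (Gam m) H → View dA dB (Fin M.k → F), (∀ h, μ.ConsOn ZA ZB (Ψ h)) →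
      (∀ v, (∀ r, G (rdS μ ν v r)) → ∀ h i, Ψ (ν.gen i * h) (tau (ν.gen i) v) = Ψ h v) →
      ∃ X, μ.Cons X ∧ ∀ (h : H) (v : Site (Gam m) H), ¬ ZA v.2.1 → ¬ ZB v.2.2 →
        Ψ h v = X (tau h⁻¹ v))
    {b : Fin 2} (hb : selfB M ν τ b) :
    ∃ x : Fin M.k → Gam m → F, ∀ (r : Fin M.k) v, G v → (W v).vwN b r 1 = en (x r) v := by
  have hk : ∀ r : Fin M.k, (r : ℕ) < M.n := fun r => r.2.trans_le c.std.ok.le
  have hfr : ∀ v, G v → ∀ (r : Fin M.k) h s, _ := fun v hv r h s =>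
    (c.pass v hv).frames b (by
      change selfB M ν (W v).clk b
      rw [c.clk v hv]
      exact hb) r r.2 h s
  obtain ⟨X, hX, hXΦ⟩ := hF (fun h v i j r => Φ (b, ⟨r, hk r⟩, h) v i j)
    (fun h => (consOn_pi _).2 fun r => c.cons _) fun v hv h s => by
      funext i j r
      have h1 : (W (tau (ν.gen s) v)).vwN b r (ν.gen s * h) = (W v).vwN b r h :=
        (hfr v (hv (.inl ())) r h s).1
      rw [c.vwN (v := tau (ν.gen s) v) (hv (.inr (.inr (.inl (0, s))))) b (hk r),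
        c.vwN (v := v) (hv (.inl ())) b (hk r)] at h1
      rw [h1]
  have hW : ∀ (r : Fin M.k) (h : H) v, G v → ∀ i j, X (tau h v) i j r = (W v).vwN b r h⁻¹ i j :=
    fun r h v hv i j => by
      have h1 := hXΦ h⁻¹ v (c.alA v hv) (c.alB v hv)
      rw [inv_inv] at h1
      rw [← h1, c.vwN hv b (hk r)]
  obtain ⟨x, hx⟩ := hH _ _ _ dA dB μ c.ok a γ ν.gen hγ hP _ X hX
    ((frac_mono fun v hv hg => by
      obtain ⟨h, s, hv⟩ := hv
      have h0 : G v := hg (.inl ())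
      have h2 : G (mvA (0, ν.gen s) v) := hg (.inr (.inr (.inl (2, s))))
      have h3 : G (mvB (0, ν.gen s) v) := hg (.inr (.inr (.inl (3, s))))
      rcases hv with hv | hv
      · refine hv (funext fun j => funext fun r => ?_)
        rw [hW r h _ h2, hW r h _ h0]
        exact congrFun (hfr v h0 r h⁻¹ s).2.1 j
      · refine hv (funext fun i => funext fun r => ?_)
        change X _ i _ r = X _ i _ r
        rw [hW r h _ h3, hW r h _ h0]
        exact congrFun (hfr v h0 r h⁻¹ s).2.2 i).trans_lt c.small)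
  refine ⟨fun r ε => x ε r, fun r v hv => ?_⟩
  rw [← c.std.uniq _ _ (isEnc_pi hx r)]
  funext i j
  have h1 := hW r 1 v hv i j
  rw [inv_one, Fr.tau_one] at h1
  exact h1.symm

theorem exists_good : ∃ v, G v := by
  obtain ⟨v, hv⟩ := exists_not_of_frac_lt_one (c.small.trans (by norm_num))
  exact ⟨v, not_not.1 hv (.inl ())⟩

theorem small' : frac (fun v => ¬ G v) < 1 / 10 :=
  (frac_mono fun _ hv hg => hv (hg (.inl ()))).trans_lt c.small

section Full

variable {b : Fin 2} {x : Fin M.k → Gam m → F}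
  (hx : ∀ i < M.n, ∀ v, G v → (W v).vwN b i 1 = en (M.reg pub (κ b) x i) v)
include hx

theorem roots {v : Site (Gam m) H} (hv : G v) : (W v).roots b = M.roots pub (κ b) x v.1 :=
  List.map_congr_left fun i hi => by rw [hx i (List.mem_range.1 hi) v hv, c.std.root]

/-- The state in the complete bank is valid. -/
theorem valid (hR : RDistStmt) (hb : selfB M ν τ b) : M.Valid pub (κ b) x := by
  have hv : ∀ v, G v → M.rt (κ b) v.1 (M.roots pub (κ b) x v.1) = true ∧
      ∀ i < M.n, M.zero (κ b) i = true → (W v).vwN b i 1 = 0 := fun v hv => by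
    have h1 := (c.pass v hv).valid b (by
      change selfB M ν (W v).clk b
      rw [c.clk v hv]
      exact hb)
    change M.rt ((W v).kp b) (cstS μ en pub v).pt ((W v).roots b) = true ∧
      ∀ i < M.n, M.zero ((W v).kp b) i = true → (W v).vwN b i 1 = 0 at h1
    rwa [c.kp v hv, cstS_pt, c.roots hx hv] at h1
  refine ⟨c.std.ok.robust _ _ ?_, fun i hi hz => ?_⟩
  · rw [← frac_fst (Y := H × H)]
    refine (frac_mono fun v h hg => ?_).trans_lt (c.small'.trans (by norm_num))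
    rw [(hv v hg).1] at h
    exact absurd h (by decide)
  · have h1 := hR _ _ _ dA dB μ c.ok F (fun _ => False) (fun _ => False)
      (en (M.reg pub (κ b) x i)) (fun _ _ _ => by rw [frac_eq_zero fun _ => id]; norm_num)
      (fun _ _ _ => by rw [frac_eq_zero fun _ => id]; norm_num)
      (Fr.consOn_of_cons (c.std.cons _) _ _)
      ((frac_mono fun v h hg => h.2.2 (by rw [← hx i hi v hg, (hv v hg).2 i hi hz])).trans_lt
        c.small')
    funext ε
    have h2 := c.std.root (M.reg pub (κ b) x i) (ε, 1, 1)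
    rw [h1 _ id id] at h2
    exact h2.symm

end Full

theorem ctl {v : Site (Gam m) H} (hv : G v) :
    (τ.1 = 0 → κ 0 = M.st ∧ κ 1 = 0) ∧
    (τ.1 = 1 → κ 1 = if τ.2 = 0 then 0 else M.nxt (κ 0) v.1 ((W v).roots 0)) ∧
    (τ.1 = 2 → κ 1 ≠ M.st ∧ κ 0 = if τ.2 = 0 then 0 else M.prv (κ 1) v.1 ((W v).roots 1)) := by
  have h1 : CtlOk (cstS μ en pub v) (W v) := (c.pass v hv).ctl
  unfold CtlOk at h1
  rwa [c.clk v hv, c.kp v hv, cstS_pt] at h1

/-- At the good sites the word is the word with the given registers `x`. -/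
theorem word {x : Fin 2 → Fin M.k → Gam m → F}
    (hx : ∀ b, ∀ i < M.n, ∀ h : H, ord M ν (κ b) i h < cnt M ν τ b → ∀ v, G v →
      (W v).vwN b i h = en (M.reg pub (κ b) (x b) i) (tau h⁻¹ v)) {v : Site (Gam m) H}
    (hv : G v) : W v = wordS en pub τ κ x v := by
  refine Sy.ext (funext fun τ' => ?_) (c.kp v hv) (funext fun ρ => ?_)
  · have h1 : (W v).ck τ' = if τ' = (W v).clk then 1 else 0 := (c.pass v hv).hot τ'
    rw [h1, c.clk v hv, wordS_ck]
  · rw [wordS_vw]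
    split_ifs with ho
    · rw [← hx ρ.1 _ ρ.2.1.2 _ ho v hv, Sy.vwN_lt _ _ ρ.2.1.2]
    · exact c.absent ρ ho v hv

/-- The word is the word of a state at all good sites. -/
theorem state (hR : RDistStmt)
    (hg : ∀ b, selfB M ν τ b →
      ∃ x : Fin M.k → Gam m → F, ∀ (r : Fin M.k) v, G v → (W v).vwN b r 1 = en (x r) v) :
    ∃ x, StOk (M := M) (ν := ν) pub τ κ x ∧ ∀ v, G v → W v = wordS en pub τ κ x v := by
  obtain ⟨v₀, hv₀⟩ := c.exists_good
  have hc := c.ctl hv₀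
  have h3 : ∀ t : Fin 3, t = 0 ∨ t = 1 ∨ t = 2 := by decide
  have full : ∀ b, selfB M ν τ b → ∀ x : Fin M.k → Gam m → F,
      (∀ i < M.n, ∀ h : H, ord M ν (κ b) i h < cnt M ν τ b → ∀ v, G v →
        (W v).vwN b i h = en (M.reg pub (κ b) x i) (tau h⁻¹ v)) →
      ∀ i < M.n, ∀ v, G v → (W v).vwN b i 1 = en (M.reg pub (κ b) x i) v :=
    fun b hb x hx i hi v hv => by
      have := hx i hi 1 (by rw [cnt_self hb]; exact c.std.ord_lt _ hi _) v hv
      rwa [inv_one, Fr.tau_one] at this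
  rcases h3 τ.1 with h | h | h
  · refine ⟨0, ⟨fun _ => ⟨(hc.1 h).1, (hc.1 h).2, rfl⟩, fun h' => ?_, fun h' => ?_⟩,
      fun v hv => c.word (fun b => c.present hR b _ fun r _ u _ => ?_) hv⟩
    · rw [h] at h'; exact absurd h' (by decide)
    · rw [h] at h'; exact absurd h' (by decide)
    · rw [srcV, if_pos h]
      exact (c.std.en_zero u).symm
  · have hb : selfB M ν τ 0 := Or.inl ⟨h, rfl⟩
    obtain ⟨x, hx⟩ := hg 0 hb
    have p0 := c.present hR 0 x fun r _ u hu => by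
      rw [h, ← hx r u hu]
      rfl
    have f0 := full 0 hb x p0
    have hV := c.valid f0 hR hb
    have p1 := c.present hR 1 (fun r => M.reg pub (κ 0) x (M.sucR (κ 0) r)) fun r _ u hu => by
      rw [h, ← f0 _ (c.std.ok.sucR _ _) u hu, ← c.kp u hu]
      rfl
    refine ⟨![x, fun r => M.reg pub (κ 0) x (M.sucR (κ 0) r)], ⟨fun h' => ?_,
      fun _ => ⟨hV, ?_, fun _ => rfl⟩, fun h' => ?_⟩, fun v hv => c.word (fun b => ?_) hv⟩
    · rw [h] at h'; exact absurd h' (by decide)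
    · rw [hc.2.1 h, c.roots f0 hv₀, (c.std.ok.const _ _ hV v₀.1 0).1]
      rfl
    · rw [h] at h'; exact absurd h' (by decide)
    · fin_cases b
      · exact p0
      · exact p1
  · have hb : selfB M ν τ 1 := Or.inr ⟨h, rfl⟩
    obtain ⟨x, hx⟩ := hg 1 hb
    have p1 := c.present hR 1 x fun r _ u hu => by
      rw [h, ← hx r u hu]
      rfl
    have f1 := full 1 hb x p1
    have hV := c.valid f1 hR hb
    have p0 := c.present hR 0 (fun r => M.reg pub (κ 1) x (M.preR (κ 1) r)) fun r _ u hu => by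
      rw [h, ← f1 _ (c.std.ok.preR _ _) u hu, ← c.kp u hu]
      rfl
    refine ⟨![fun r => M.reg pub (κ 1) x (M.preR (κ 1) r), x], ⟨fun h' => ?_, fun h' => ?_,
      fun _ => ⟨hV, (hc.2.2 h).1, ?_, fun _ => rfl⟩⟩, fun v hv => c.word (fun b => ?_) hv⟩
    · rw [h] at h'; exact absurd h' (by decide)
    · rw [h] at h'; exact absurd h' (by decide)
    · rw [(hc.2.2 h).2, c.roots f1 hv₀, (c.std.ok.const _ _ hV v₀.1 0).2]
      rfl
    · fin_cases b
      · exact p0
      · exact p1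

end Ctx

theorem clk_congr {y y' : Sy M ν dA dB} (h : ∀ j, y (.inl j) = y' (.inl j)) : y.clk = y'.clk := by
  have h1 : y.ck = y'.ck := funext fun τ => h _
  unfold Sy.clk
  rw [h1]

theorem kp_congr {y y' : Sy M ν dA dB} (h : ∀ j, y (.inl j) = y' (.inl j)) : y.kp = y'.kp :=
  funext fun _ => funext fun _ => h _

end Snd

open Snd in
/-- P2: soundness of the test. -/
theorem soundStmt (hR : RDistStmt) (hL : RLTCStmt) (hF : FrameStmt) (hH : HalfStmt)
    (hC : CtlStmt) : SoundStmt := by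
  obtain ⟨lB, hlB, hL⟩ := hL
  refine ⟨min lB (1 / 100), lt_min hlB (by norm_num), fun dB => ?_⟩
  obtain ⟨lA, θ1, C0, hlA, hθ1, hC0, hL⟩ := hL dB
  refine ⟨min lA (1 / 100), lt_min hlA (by norm_num), fun dA a γ hγ => ?_⟩
  obtain ⟨ζ, hζ, hF⟩ := hF a γ hγ
  set C1 : ℝ := 11 + 3 * (C0 * dA) with hC1
  have hC0' : 0 ≤ C0 * dA := by positivity
  have hC1' : 11 ≤ C1 := by linarith
  set K : ℝ := (Fintype.card (RI a dA dB) : ℝ) with hK
  have hK1 : 1 ≤ K := by
    have : 0 < Fintype.card (RI a dA dB) := Fintype.card_pos_iff.2 ⟨.inl ()⟩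
    rw [hK]
    exact_mod_cast this
  have hKC : 0 < K * C1 := by positivity
  refine ⟨min θ1 (min ζ (1 / 100) / (K * C1)), C1,
    lt_min hθ1 (div_pos (lt_min hζ (by norm_num)) hKC), by linarith, ?_⟩
  intro m nc F H _ _ _ _ M ν μ en pub hS hμ hP W θ hθ hW
  have hθ0 : 0 ≤ θ := (frac_nonneg _).trans hW
  have hθK : θ * (K * C1) ≤ min ζ (1 / 100) := (le_div_iff₀ hKC).1 (hθ.trans (min_le_right _ _))
  have hθC : C1 * θ ≤ K * (C1 * θ) := le_mul_of_one_le_left (by positivity) hK1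
  have hKζ : K * (C1 * θ) ≤ ζ := by linarith [min_le_left ζ (1 / 100)]
  have hK100 : K * (C1 * θ) ≤ 1 / 100 := by linarith [min_le_right ζ (1 / 100)]
  have hθ11 : 11 * θ ≤ C1 * θ := mul_le_mul_of_nonneg_right hC1' hθ0
  have hA0 := (lt_min hlA (by norm_num : (0 : ℝ) < 1 / 100)).le
  have hB0 := (lt_min hlB (by norm_num : (0 : ℝ) < 1 / 100)).le
  have ok1 : μ.Ok (1 / 100) (1 / 100) := ok_mono hμ hA0 hB0 (min_le_right _ _) (min_le_right _ _)
  have ok2 : μ.Ok lA lB := ok_mono hμ hA0 hB0 (min_le_left _ _) (min_le_left _ _)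
  obtain ⟨y, hy⟩ := hC _ _ _ dA dB μ ok1 _ (fun v j => W v (.inl j)) θ (by linarith)
    ((frac_mono fun v hv hp => hv ⟨fun s => funext fun j => hp.eqc (.inl s) j,
      fun s => funext fun j => hp.eqc (.inr s) j⟩).trans hW)
  obtain ⟨ZA, ZB, Φ, hZA, hZB, spA, spB, hΦ, hXΦ⟩ := hL _ _ _ dA μ ok2 (Rg M.n H → F)
    (fun v i j ρ => (W v).vw ρ i j) θ (hθ.trans (min_le_left _ _))
    ((frac_mono fun v hv hp => hv ⟨fun s => (edgeA_pi _ v s).2 fun ρ => hp.edgeA s ρ,
      fun s => (edgeB_pi _ v s).2 fun ρ => hp.edgeB s ρ⟩).trans hW)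
  set G : Site (Gam m) H → Prop := fun v => Pass μ en pub W v ∧ (fun j => W v (.inl j)) = y ∧
    ¬ ZA v.2.1 ∧ ¬ ZB v.2.2 ∧ (fun i j ρ => (W v).vw ρ i j) = Φ v with hG
  have hG1 : frac (fun v => ¬ G v) ≤ C1 * θ := by
    have h1 := frac_le_add3 (p := fun v => ¬ G v) (q := fun v => ¬ Pass μ en pub W v)
      (r := fun v => (fun j => W v (.inl j)) ≠ y)
      (s := fun v => ZA v.2.1 ∨ ZB v.2.2 ∨ (fun i j ρ => (W v).vw ρ i j) ≠ Φ v) fun v hv => by
        simp only [hG] at hv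
        tauto
    have h2 := frac_le_add3 (p := fun v : Site (Gam m) H => ZA v.2.1 ∨ ZB v.2.2 ∨
      (fun i j ρ => (W v).vw ρ i j) ≠ Φ v) fun _ => id
    rw [Fr.frac_site_A, Fr.frac_site_B] at h2
    have h3 : C1 * θ = θ + 10 * θ + (C0 * dA * θ + C0 * dA * θ + C0 * dA * θ) := by
      rw [hC1]; ring
    linarith
  have hG2 : frac (fun v => ¬ ∀ r, G (rdS μ ν v r)) ≤ K * (C1 * θ) :=
    (frac_mono fun v hv => not_forall.1 hv).trans (frac_exists_le_card fun r =>
      (frac_bij (rdS_bij r) fun v => ¬ G v).trans_le hG1)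
  obtain ⟨v₀, hv₀⟩ := exists_not_of_frac_lt_one (hG1.trans_lt (by linarith))
  rw [not_not] at hv₀
  have hy₀ : ∀ v, G v → ∀ j, W v (.inl j) = W v₀ (.inl j) := fun v hv j =>
    (congrFun hv.2.1 j).trans (congrFun hv₀.2.1 j).symm
  have c : Ctx μ en pub W (W v₀).clk (W v₀).kp ZA ZB (fun ρ v i j => Φ v i j ρ) G :=
    { std := hS
      ok := ok1
      spA := spA
      spB := spB
      cons := (consOn_pi Φ).1 hΦ
      pass := fun _ hv => hv.1
      clk := fun v hv => clk_congr (hy₀ v hv)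
      kp := fun v hv => kp_congr (hy₀ v hv)
      alA := fun _ hv => hv.2.2.1
      alB := fun _ hv => hv.2.2.2.1
      vw := fun v hv ρ => by rw [← hv.2.2.2.2]
      small := hG2.trans_lt (by linarith) }
  have hC3 : C0 * dA * θ ≤ C1 * θ := mul_le_mul_of_nonneg_right (by linarith) hθ0
  obtain ⟨x, hx, hWx⟩ := c.state hR fun b hb => c.given hH hγ hP (fun Ψ h1 h2 =>
    hF _ _ _ dA dB μ ok1 ν.gen hP _ ZA ZB Ψ (by linarith) (by linarith) spA spB h1
      (((frac_mono fun v ⟨h, i, hv⟩ hg => hv (h2 v hg h i)).trans hG2).trans hKζ)) hb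
  exact ⟨_, _, x, hx, (frac_mono fun v hv hg => hv (hWx v hg)).trans hG1⟩

end Vale.Agent.P330.Outer.Phys
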