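import Vale.Agent.P330.Outer.Phys.Word

/-!
P330, outer system: the words of the states pass the test, and the steps between them.
-/

namespace Vale.Agent.P330.Outer.Phys

open Vale.Agent.P330.Bohr

variable {m nc a dA dB : ℕ} {F H : Type} [Field F] [Group H] [MulAction H (Fin m)]
  {M : GM m nc F} {ν : Nav m a H} {μ : Mem (Gam m) H F dA dB}
  {en : (Gam m → F) → Site (Gam m) H → View dA dB F} {pub : ℕ → Gam m → F}
  {τ τ' : Ck (NN M ν)} {κ κ' : Fin 2 → Vec (Fin nc) F} {x x' : Fin 2 → Fin M.k → Gam m → F}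

namespace St

theorem fin2 (b : Fin 2) : b = 0 ∨ b = 1 := by omega

theorem fin3 (p : Fin 3) : p = 0 ∨ p = 1 ∨ p = 2 := by omega

/-- the symbols which are read at the site `v` -/
abbrev rw' (μ : Mem (Gam m) H F dA dB) (W : Site (Gam m) H → Sy M ν dA dB) (v : Site (Gam m) H) :
    RI a dA dB → Sy M ν dA dB := fun r => W (rdS μ ν v r)

theorem srcV_word (hS : Std M ν μ en pub) (h : StOk pub τ κ x) (v : Site (Gam m) H) {b : Fin 2}
    (hb : τ.1 = 0 → b = 0) {i : ℕ} (hi : i < M.k) :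
    srcV (wordS en pub τ κ x v : Sy M ν dA dB) τ.1 b i = en (x b ⟨i, hi⟩) v := by
  have hn := hi.trans_le hS.ok.le
  unfold srcV
  rcases fin3 τ.1 with h0 | h0 | h0
  · rw [if_pos h0, hb h0, (h.1 h0).2.2]
    exact (hS.en_zero v).symm
  · have hc : cnt M ν τ 0 = NN M ν := cnt_self (Or.inl ⟨h0, rfl⟩)
    rw [if_neg (by omega), if_pos h0]
    rcases fin2 b with rfl | rfl
    · rw [if_pos rfl, wordS_vwN_one x v hS hc hn, reg_lt M pub _ _ hi]
    · rw [if_neg (by omega), wordS_kp, wordS_vwN_one x v hS hc (hS.ok.sucR _ _),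
        (h.2.1 h0).2.2 ⟨i, hi⟩]
  · have hc : cnt M ν τ 1 = NN M ν := cnt_self (Or.inr ⟨h0, rfl⟩)
    rw [if_neg (by omega), if_neg (by omega)]
    rcases fin2 b with rfl | rfl
    · rw [if_pos rfl, wordS_kp, wordS_vwN_one x v hS hc (hS.ok.preR _ _), (h.2.2 h0).2.2.2 ⟨i, hi⟩]
    · rw [if_neg (by omega), wordS_vwN_one x v hS hc hn, reg_lt M pub _ _ hi]

theorem defV_word (hS : Std M ν μ en pub) (h : StOk pub τ κ x) (v : Site (Gam m) H) {b : Fin 2}
    (hb : τ.1 = 0 → b = 0) {k : Vec (Fin nc) F} (hk : cnt M ν τ b = 0 ∨ κ b = k) {i : ℕ}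
    (hi : i < M.n) {g : H} (ho : ord M ν k i g ≤ cnt M ν τ b) :
    defV (cstS μ en pub v) (rw' μ (wordS en pub τ κ x) v) τ.1 k b i g =
      en (M.reg pub k (x b) i) (tau g⁻¹ v) := by
  have key : ∀ u j g', j < M.n → ord M ν k j g' < ord M ν k i g →
      (wordS en pub τ κ x u : Sy M ν dA dB).vwN b j g' =
        en (M.reg pub k (x b) j) (tau g'⁻¹ u) := by
    intro u j g' hj hlt
    rcases hk with hk | rfl
    · omega
    · exact wordS_vwN x u hj (hlt.trans_le ho)
  refine defV_eq hS v _ _ k (x b) b i g (fun j hj => ?_) (fun s hs => ?_) (fun t j hj => ?_)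
    fun hik _ => ?_
  · have := key v j 1 (hj.trans hi) (ord_lt_of_lt hS.nav.lt k k hj 1 g)
    rwa [inv_one, Fr.tau_one] at this
  · exact key _ i _ hi (ord_par hS.nav k i hs)
  · exact key _ j g (hj.trans hi) (ord_lt_of_lt hS.nav.lt k k hj g g)
  · rw [reg_lt M pub _ _ hik]
    exact srcV_word hS h v hb hik

theorem nxt_word (hS : Std M ν μ en pub) (h : StOk pub τ κ x) (h1 : τ.1 = 1) (v : Site (Gam m) H) :
    M.nxt (κ 0) v.1 ((wordS en pub τ κ x v : Sy M ν dA dB).roots 0) =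
      M.nxt (κ 0) 0 (M.roots pub (κ 0) (x 0) 0) := by
  rw [wordS_roots x v hS (cnt_self (Or.inl ⟨h1, rfl⟩))]
  exact (hS.ok.const _ _ (h.2.1 h1).1 _ _).1

theorem prv_word (hS : Std M ν μ en pub) (h : StOk pub τ κ x) (h1 : τ.1 = 2) (v : Site (Gam m) H) :
    M.prv (κ 1) v.1 ((wordS en pub τ κ x v : Sy M ν dA dB).roots 1) =
      M.prv (κ 1) 0 (M.roots pub (κ 1) (x 1) 0) := by
  rw [wordS_roots x v hS (cnt_self (Or.inr ⟨h1, rfl⟩))]
  exact (hS.ok.const _ _ (h.2.2 h1).1 _ _).2

omit [Group H] [MulAction H (Fin m)] in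
theorem valid_self (h : StOk pub τ κ x) {b : Fin 2} (hb : selfB M ν τ b) :
    M.Valid pub (κ b) (x b) := by
  rcases hb with ⟨h1, rfl⟩ | ⟨h1, rfl⟩
  · exact (h.2.1 h1).1
  · exact (h.2.2 h1).1

theorem pass (hS : Std M ν μ en pub) (h : StOk pub τ κ x) (v : Site (Gam m) H) :
    Pass (M := M) (ν := ν) μ en pub (wordS en pub τ κ x) v where
  hot τ' := by simp [rdS]
  eqc s j := mkSy_inl _ _ _ _ j
  edgeA s ρ := (wordS_cons x hS τ κ ρ v).1 s
  edgeB s ρ := (wordS_cons x hS τ κ ρ v).2 s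
  regs ρ := by
    simp only [rdS, wordS_clk, wordS_kp, wordS_vw]
    split_ifs with ho
    · refine (defV_word hS h v (fun h0 => ?_) (Or.inr rfl) ρ.2.1.2 ho.le).symm
      by_contra hb
      simp [cnt, h0, hb] at ho
    · rfl
  frames b hb i hi g s := by
    simp only [rdS, wordS_clk] at hb ⊢
    have hn := hi.trans_le hS.ok.le
    simp only [wordS_vwN_full x _ hS (cnt_self hb) hn]
    refine ⟨?_, ?_, ?_⟩
    · simp [Fr.tau_tau]
    · simp only [Matrix.cons_val, tau, mvA, smul_zero, add_zero]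
      exact (hS.half _ _ _ _ _).1
    · simp only [Matrix.cons_val, tau, mvB, smul_zero, add_zero]
      exact (hS.half _ _ _ _ _).2
  valid b hb := by
    simp only [rdS, wordS_clk, wordS_kp, cstS_pt] at hb ⊢
    have hv := valid_self h hb
    refine ⟨?_, fun i hi hz => ?_⟩
    · rw [wordS_roots x v hS (cnt_self hb)]
      exact hv.1 _
    · rw [wordS_vwN_one x v hS (cnt_self hb) hi, hv.2 i hi hz, hS.en_zero]
  ctl := by
    simp only [CtlOk, rdS, wordS_clk, wordS_kp, cstS_pt]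
    refine ⟨fun h0 => ⟨(h.1 h0).1, (h.1 h0).2.1⟩, fun h1 => ?_, fun h2 => ⟨(h.2.2 h2).2.1, ?_⟩⟩
    · rw [nxt_word hS h h1]
      exact (h.2.1 h1).2.1
    · rw [prv_word hS h h2]
      exact (h.2.2 h2).2.2.1

/-! ### The elementary operations on words -/

theorem word_congr (hx : ∀ b, cnt M ν τ b = 0 ∨ x b = x' b) :
    (wordS en pub τ κ x : _ → Sy M ν dA dB) = wordS en pub τ κ x' := by
  funext v
  refine congrArg (mkSy τ κ) (funext fun ρ => ?_)
  rcases hx ρ.1 with h | h
  · simp [h]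
  · rw [h]

theorem retime (hc : ∀ b, cnt M ν τ' b = cnt M ν τ b) (v : Site (Gam m) H) :
    mkSy τ' κ (wordS en pub τ κ x v : Sy M ν dA dB).vw = wordS en pub τ' κ x v := by
  refine congrArg (mkSy τ' κ) (funext fun ρ => ?_)
  rw [wordS_vw, hc]

theorem swap_word (hc : ∀ b, cnt M ν τ' b = cnt M ν τ b.rev) (v : Site (Gam m) H) :
    swap (wordS en pub τ κ x v : Sy M ν dA dB) τ' =
      wordS en pub τ' (fun b => κ b.rev) (fun b => x b.rev) v := by
  refine congrArg (mkSy τ' _) (funext fun ρ => ?_)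
  rw [wordS_vw, hc]

theorem erase_word {b : Fin 2} {k : Vec (Fin nc) F} (h1 : cnt M ν τ b = τ.2)
    (h2 : cnt M ν τ' b + 1 = τ.2) (h3 : ∀ b', b' ≠ b → cnt M ν τ' b' = cnt M ν τ b')
    (hk : cnt M ν τ' b = 0 ∨ κ b = k) (v : Site (Gam m) H) :
    erase (wordS en pub τ κ x v : Sy M ν dA dB) b k τ' =
      wordS en pub τ' (Function.update κ b k) x v := by
  refine congrArg (mkSy τ' _) (funext fun ρ => ?_)
  simp only [wordS_clk, wordS_kp, wordS_vw]
  by_cases hb : ρ.1 = b
  · simp only [hb, true_and, Function.update_self, h1]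
    rcases hk with hk | rfl
    · rw [if_neg (show ¬ ord M ν k ρ.2.1 ρ.2.2 < cnt M ν τ' b by omega)]
      split_ifs
      · rfl
      · omega
      · rfl
    · split_ifs
      · omega
      · rfl
      · rfl
      · omega
      · omega
      · rfl
  · simp only [hb, false_and, if_false, Function.update_of_ne hb, h3 _ hb]

theorem build_word (hS : Std M ν μ en pub) (h : StOk pub τ κ x) {b : Fin 2} (hb0 : τ.1 = 0 → b = 0)
    {k : Vec (Fin nc) F} (h1 : cnt M ν τ b = τ.2) (h2 : cnt M ν τ' b = τ.2 + 1)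
    (h3 : ∀ b', b' ≠ b → cnt M ν τ' b' = cnt M ν τ b') (hk : cnt M ν τ b = 0 ∨ κ b = k)
    (v : Site (Gam m) H) :
    build (cstS μ en pub v) (rw' μ (wordS en pub τ κ x) v) b k τ' =
      (wordS en pub τ' (Function.update κ b k) x v : Sy M ν dA dB) := by
  refine congrArg (mkSy τ' _) (funext fun ρ => ?_)
  simp only [rdS, wordS_clk, wordS_vw]
  by_cases hb : ρ.1 = b
  · simp only [hb, true_and, Function.update_self, h2]
    by_cases ho : ord M ν k ρ.2.1 ρ.2.2 = τ.2
    · rw [if_pos ho, if_pos (by omega)]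
      exact defV_word hS h v hb0 hk ρ.2.1.2 (by omega)
    · rw [if_neg ho]
      rcases hk with hk | rfl
      · rw [if_neg (by omega), if_neg (by omega)]
      · split_ifs
        · rfl
        · omega
        · omega
        · rfl
  · simp only [hb, false_and, if_false, Function.update_of_ne hb, h3 _ hb]

/-! ### The edges -/

theorem up_eq {N : ℕ} {j j' : Fin (N + 1)} (h : (j' : ℕ) = j + 1) : up j = j' := by
  have := j'.2
  refine Fin.ext ?_
  simp only [up]
  omega

theorem down_eq {N : ℕ} {j j' : Fin (N + 1)} (h : (j' : ℕ) = j + 1) : down j' = j := by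
  refine Fin.ext ?_
  simp only [down]
  omega

theorem ne_last {N : ℕ} {j j' : Fin (N + 1)} (h : (j' : ℕ) = j + 1) : j ≠ Fin.last N := by
  have := j'.2
  rintro rfl
  simp only [Fin.val_last] at h
  omega

theorem ne_zero {N : ℕ} {j j' : Fin (N + 1)} (h : (j' : ℕ) = j + 1) : j' ≠ 0 := by
  rintro rfl
  simp at h

theorem up_val {N : ℕ} {j : Fin (N + 1)} (h : j ≠ Fin.last N) : (up j : ℕ) = j + 1 := by
  have h1 := j.2
  have h2 : (j : ℕ) ≠ N := fun h' => h (Fin.ext h')
  simp only [up]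
  omega

theorem down_val {N : ℕ} {j : Fin (N + 1)} (h : j ≠ 0) : (j : ℕ) = down j + 1 := by
  have h2 : (j : ℕ) ≠ 0 := fun h' => h (Fin.ext h')
  simp only [down]
  omega

variable {j j' : Fin (NN M ν + 1)}

theorem edge0 (hS : Std M ν μ en pub) (hj : (j' : ℕ) = j + 1) (h : StOk pub (0, j) κ x) :
    StepS (M := M) (ν := ν) μ en pub (wordS en pub (0, j) κ x) (wordS en pub (0, j') κ x) := by
  have h' : StOk (ν := ν) pub (0, j') κ x := ⟨h.1, fun h => by simp at h, fun h => by simp at h⟩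
  refine ⟨pass hS h, pass hS h', fun v => ?_, fun v => ?_⟩
  · simp only [sucS, rdS, wordS_clk, wordS_kp, if_true, if_neg (ne_last hj), up_eq hj]
    refine (build_word hS h (fun _ => rfl) rfl (by simp [cnt, hj]) (fun b hb => by simp [cnt, hb])
      (Or.inr rfl) v).trans ?_
    rw [Function.update_eq_self]
  · simp only [preS, rdS, wordS_clk, wordS_kp, if_true, if_neg (ne_zero hj), down_eq hj]
    refine (erase_word rfl (by simp [cnt, hj]) (fun b hb => by simp [cnt, hb])
      (Or.inr rfl) v).trans ?_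
    rw [Function.update_eq_self]

theorem edge1 (hS : Std M ν μ en pub) (h : StOk pub (0, Fin.last (NN M ν)) κ x)
    (h' : StOk (ν := ν) pub (1, 0) κ x) :
    StepS (M := M) (ν := ν) μ en pub (wordS en pub (0, Fin.last _) κ x)
      (wordS en pub (1, 0) κ x) := by
  have hc : ∀ b, cnt M ν (1, 0) b = cnt M ν (0, Fin.last _) b := fun b => by
    rcases fin2 b with rfl | rfl <;> simp [cnt]
  refine ⟨pass hS h, pass hS h', fun v => ?_, fun v => ?_⟩
  · simp only [sucS, rdS, wordS_clk, wordS_kp, if_true]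
    exact retime hc v
  · simp only [preS, rdS, wordS_clk, wordS_kp, if_true, (h.1 rfl).1, one_ne_zero, if_false]
    exact retime (fun b => (hc b).symm) v

theorem edge2 (hS : Std M ν μ en pub) (hj : (j' : ℕ) = j + 1) (h : StOk pub (1, j) κ x)
    (h' : StOk pub (1, j') κ' x) (hk : κ' 0 = κ 0) :
    StepS (M := M) (ν := ν) μ en pub (wordS en pub (1, j) κ x) (wordS en pub (1, j') κ' x) := by
  have h1 := (h.2.1 rfl).2.1
  have h2 := (h'.2.1 rfl).2.1
  simp only [if_neg (ne_zero hj), hk] at h1 h2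
  refine ⟨pass hS h, pass hS h', fun v => ?_, fun v => ?_⟩
  · simp only [sucS, rdS, wordS_clk, wordS_kp, if_true, if_neg (ne_last hj), up_eq hj, one_ne_zero,
      if_false, cstS_pt, nxt_word hS h rfl]
    refine (build_word hS h (fun h => by simp at h) (by simp [cnt]) (by simp [cnt, hj])
      (fun b hb => by simp [cnt, (fin2 b).resolve_right hb]) ?_ v).trans ?_
    · by_cases h0 : j = 0
      · exact Or.inl (by simp [cnt, h0])
      · exact Or.inr (by rw [h1, if_neg h0])
    · congr 1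
      funext b
      rcases fin2 b with rfl | rfl <;> simp [hk, h2]
  · simp only [preS, rdS, wordS_clk, wordS_kp, if_true, if_neg (ne_zero hj), down_eq hj,
      one_ne_zero, if_false]
    refine (erase_word (by simp [cnt]) (by simp [cnt, hj])
      (fun b hb => by simp [cnt, (fin2 b).resolve_right hb]) ?_ v).trans ?_
    · by_cases h0 : j = 0
      · exact Or.inl (by simp [cnt, h0])
      · exact Or.inr (by rw [if_neg h0])
    · congr 1
      funext b
      rcases fin2 b with rfl | rfl <;> simp [hk, h1, h2]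

theorem edge3 (hS : Std M ν μ en pub) (h : StOk pub (1, Fin.last (NN M ν)) κ x)
    (h' : StOk pub (2, Fin.last (NN M ν)) κ x) :
    StepS (M := M) (ν := ν) μ en pub (wordS en pub (1, Fin.last _) κ x)
      (wordS en pub (2, Fin.last _) κ x) := by
  have hc : ∀ b, cnt M ν (2, Fin.last _) b = cnt M ν (1, Fin.last _) b := fun b => by
    rcases fin2 b with rfl | rfl <;> simp [cnt]
  refine ⟨pass hS h, pass hS h', fun v => ?_, fun v => ?_⟩
  · simp only [sucS, rdS, wordS_clk, wordS_kp, if_true, one_ne_zero, if_false]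
    exact retime hc v
  · simp only [preS, rdS, wordS_clk, wordS_kp, if_true, Fin.reduceEq, if_false]
    exact retime (fun b => (hc b).symm) v

theorem edge4 (hS : Std M ν μ en pub) (hj : (j' : ℕ) = j + 1) (h : StOk pub (2, j) κ x)
    (h' : StOk pub (2, j') κ' x) (hk : κ' 1 = κ 1) :
    StepS (M := M) (ν := ν) μ en pub (wordS en pub (2, j') κ' x) (wordS en pub (2, j) κ x) := by
  have h1 := (h.2.2 rfl).2.2.1
  have h2 := (h'.2.2 rfl).2.2.1
  simp only [if_neg (ne_zero hj), hk] at h1 h2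
  refine ⟨pass hS h', pass hS h, fun v => ?_, fun v => ?_⟩
  · simp only [sucS, rdS, wordS_clk, wordS_kp, if_neg (ne_zero hj), down_eq hj, Fin.reduceEq,
      if_false]
    refine (erase_word (by simp [cnt]) (by simp [cnt, hj])
      (fun b hb => by simp [cnt, hb]) ?_ v).trans ?_
    · by_cases h0 : j = 0
      · exact Or.inl (by simp [cnt, h0])
      · exact Or.inr (by rw [if_neg h0])
    · congr 1
      funext b
      rcases fin2 b with rfl | rfl <;> simp [hk, h1, h2]
  · simp only [preS, rdS, wordS_clk, wordS_kp, if_neg (ne_last hj), up_eq hj, Fin.reduceEq,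
      if_false, cstS_pt, prv_word hS h rfl]
    refine (build_word hS h (fun h => by simp at h) (by simp [cnt]) (by simp [cnt, hj])
      (fun b hb => by simp [cnt, hb]) ?_ v).trans ?_
    · by_cases h0 : j = 0
      · exact Or.inl (by simp [cnt, h0])
      · exact Or.inr (by rw [h1, if_neg h0])
    · congr 1
      funext b
      rcases fin2 b with rfl | rfl <;> simp [hk, h2]

/-! ### Existence of the neighbours -/

theorem stS_eq (h : StOk (ν := ν) pub (0, 0) κ x) :
    (wordS en pub (0, 0) κ x : _ → Sy M ν dA dB) = fun _ => stS := by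
  funext v
  obtain ⟨h1, h2, -⟩ := h.1 rfl
  unfold wordS stS
  congr 1
  · funext b
    rcases fin2 b with rfl | rfl <;> simp [h1, h2]
  · funext ρ
    rcases fin2 ρ.1 with h | h <;> simp [cnt, h]

omit [Group H] [MulAction H (Fin m)] in
theorem stOk_A0 {k : Vec (Fin nc) F} {z : Fin M.k → Gam m → F} (hv : M.Valid pub k z) :
    StOk (ν := ν) pub (1, 0) ![k, 0] ![z, fun r => M.reg pub k z (M.sucR k r)] :=
  ⟨fun h => by simp at h, fun _ => ⟨hv, rfl, fun _ => rfl⟩, fun h => by simp at h⟩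

omit [Group H] [MulAction H (Fin m)] in
theorem stOk_B0 {k : Vec (Fin nc) F} {z : Fin M.k → Gam m → F} (hv : M.Valid pub k z)
    (hk : k ≠ M.st) :
    StOk (ν := ν) pub (2, 0) ![0, k] ![fun r => M.reg pub k z (M.preR k r), z] :=
  ⟨fun h => by simp at h, fun h => by simp at h, fun _ => ⟨hv, hk, rfl, fun _ => rfl⟩⟩

/-- the edge from the backward to the forward phase -/
theorem edge5' (hS : Std M ν μ en pub) {k : Vec (Fin nc) F} {z : Fin M.k → Gam m → F}
    (hv : M.Valid pub k z) (hk : k ≠ M.st) (y y' : Fin M.k → Gam m → F) :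
    StepS (M := M) (ν := ν) μ en pub (wordS en pub (2, 0) ![0, k] ![y, z])
      (wordS en pub (1, 0) ![k, 0] ![z, y']) := by
  have e1 : (wordS en pub (2, 0) ![0, k] ![y, z] : _ → Sy M ν dA dB) =
      wordS en pub (2, 0) ![0, k] ![fun r => M.reg pub k z (M.sucR k r), z] :=
    word_congr fun b => by rcases fin2 b with rfl | rfl <;> simp [cnt]
  have e2 : (wordS en pub (2, 0) ![0, k] ![fun r => M.reg pub k z (M.preR k r), z] :
      _ → Sy M ν dA dB) = wordS en pub (2, 0) ![0, k] ![fun r => M.reg pub k z (M.sucR k r), z] :=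
    word_congr fun b => by rcases fin2 b with rfl | rfl <;> simp [cnt]
  have e3 : (wordS en pub (1, 0) ![k, 0] ![z, y'] : _ → Sy M ν dA dB) =
      wordS en pub (1, 0) ![k, 0] ![z, fun r => M.reg pub k z (M.sucR k r)] :=
    word_congr fun b => by rcases fin2 b with rfl | rfl <;> simp [cnt]
  rw [e1, e3]
  refine ⟨e2 ▸ pass hS (stOk_B0 hv hk), pass hS (stOk_A0 hv), fun v => ?_, fun v => ?_⟩
  · simp only [sucS, rdS, wordS_clk, if_true, Fin.reduceEq, if_false]
    refine (swap_word (fun b => by rcases fin2 b with rfl | rfl <;> simp [cnt]) v).trans ?_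
    congr 1 <;> funext b <;> rcases fin2 b with rfl | rfl <;> rfl
  · have h1 : ¬ (![k, 0] : Fin 2 → _) 0 = M.st := hk
    simp only [preS, rdS, wordS_clk, wordS_kp, if_true, one_ne_zero, if_false]
    refine (if_neg h1).trans
      ((swap_word (fun b => by rcases fin2 b with rfl | rfl <;> simp [cnt]) v).trans ?_)
    congr 1 <;> funext b <;> rcases fin2 b with rfl | rfl <;> rfl

/-- the edge from the initial to the forward phase -/
theorem edge1' (hS : Std M ν μ en pub) (y y' : Fin M.k → Gam m → F) :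
    StepS (M := M) (ν := ν) μ en pub (wordS en pub (0, Fin.last _) ![M.st, 0] ![0, y])
      (wordS en pub (1, 0) ![M.st, 0] ![0, y']) := by
  have h := edge1 (κ := ![M.st, 0]) (x := ![0, fun r => M.reg pub M.st 0 (M.sucR M.st r)]) hS
    ⟨fun _ => ⟨rfl, rfl, rfl⟩, fun h => by simp at h, fun h => by simp at h⟩ (stOk_A0 hS.ok.start)
  rwa [word_congr (x' := ![0, y]) fun b => by rcases fin2 b with rfl | rfl <;> simp [cnt],
    word_congr (τ := (1, 0)) (x' := ![0, y']) fun b => by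
      rcases fin2 b with rfl | rfl <;> simp [cnt]] at h

theorem eta2 {Z : Type} (f : Fin 2 → Z) : f = ![f 0, f 1] := by
  funext b
  rcases fin2 b with rfl | rfl <;> rfl

theorem last_ne (hS : Std M ν μ en pub) : Fin.last (NN M ν) ≠ 0 := fun h => by
  have h1 := hS.NN_pos
  have h2 := congrArg Fin.val h
  simp only [Fin.val_last, Fin.val_zero] at h2
  omega

theorem stOk_fwd (hS : Std M ν μ en pub) (hs : M.Step pub (κ 0) (x 0) (κ 1) (x 1)) :
    StOk pub (1, Fin.last (NN M ν)) κ x :=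
  ⟨fun h => by simp at h,
    fun _ => ⟨hs.1, by rw [if_neg (last_ne hS), hs.2.2.2.1], hs.2.2.2.2.1⟩, fun h => by simp at h⟩

theorem stOk_bwd (hS : Std M ν μ en pub) (hs : M.Step pub (κ 0) (x 0) (κ 1) (x 1)) :
    StOk pub (2, Fin.last (NN M ν)) κ x :=
  ⟨fun h => by simp at h, fun h => by simp at h, fun _ => ⟨hs.2.1, hs.2.2.1,
    by rw [if_neg (last_ne hS), hs.2.2.2.2.2.1], hs.2.2.2.2.2.2⟩⟩

theorem exists_suc (hS : Std M ν μ en pub) (h : StOk pub τ κ x)
    (hs : τ.1 = 1 → ∃ k z, M.Step pub (κ 0) (x 0) k z) :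
    ∃ W, StepS (M := M) (ν := ν) μ en pub (wordS en pub τ κ x) W := by
  obtain ⟨p, j⟩ := τ
  rcases fin3 p with rfl | rfl | rfl
  · by_cases hj : j = Fin.last _
    · obtain ⟨h1, h2, h3⟩ := h.1 rfl
      rw [hj, eta2 κ, eta2 x, h1, h2, h3]
      exact ⟨_, edge1' hS _ 0⟩
    · exact ⟨_, edge0 hS (up_val hj) h⟩
  · obtain ⟨h1, h2, h3⟩ := h.2.1 rfl
    by_cases hj : j = Fin.last _
    · obtain ⟨k, z, hz⟩ := hs rfl
      subst hj
      have e1 : k = κ 1 := by rw [h2, if_neg (last_ne hS), hz.2.2.2.1]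
      have e2 : z = x 1 := funext fun r => by rw [h3, hz.2.2.2.2.1]
      subst e1 e2
      exact ⟨_, edge3 hS h (stOk_bwd hS hz)⟩
    · refine ⟨_, edge2 (κ' := ![κ 0, M.nxt (κ 0) 0 (M.roots pub (κ 0) (x 0) 0)]) hS (up_val hj) h
        ⟨fun h => by simp at h, fun _ => ⟨h1, ?_, h3⟩, fun h => by simp at h⟩ rfl⟩
      rw [if_neg (ne_zero (up_val hj))]
      rfl
  · obtain ⟨h1, h2, h3, h4⟩ := h.2.2 rfl
    by_cases hj : j = 0
    · rw [if_pos hj] at h3
      rw [hj, eta2 κ, eta2 x, h3]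
      exact ⟨_, edge5' hS h1 h2 _ 0⟩
    · exact ⟨_, edge4 (κ := ![if down j = 0 then 0 else M.prv (κ 1) 0 (M.roots pub (κ 1) (x 1) 0),
        κ 1]) hS (down_val hj)
        ⟨fun h => by simp at h, fun h => by simp at h, fun _ => ⟨h1, h2, rfl, h4⟩⟩ h rfl⟩

theorem exists_pre (hS : Std M ν μ en pub) (h : StOk pub τ κ x) (h0 : τ ≠ (0, 0))
    (hs : τ.1 = 2 → ∃ k z, M.Step pub k z (κ 1) (x 1)) :
    ∃ W, StepS (M := M) (ν := ν) μ en pub W (wordS en pub τ κ x) := by
  obtain ⟨p, j⟩ := τ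
  rcases fin3 p with rfl | rfl | rfl
  · have hj : j ≠ 0 := fun hj => h0 (by rw [hj])
    exact ⟨_, edge0 hS (down_val hj) ⟨h.1, fun h => by simp at h, fun h => by simp at h⟩⟩
  · obtain ⟨h1, h2, h3⟩ := h.2.1 rfl
    by_cases hj : j = 0
    · rw [if_pos hj] at h2
      rw [hj, eta2 κ, eta2 x, h2]
      by_cases hk : κ 0 = M.st
      · rw [hk] at h1 ⊢
        rw [hS.ok.uniq _ h1]
        exact ⟨_, edge1' hS 0 _⟩
      · exact ⟨_, edge5' hS h1 hk 0 _⟩
    · exact ⟨_, edge2 (κ := ![κ 0, if down j = 0 then 0 else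
        M.nxt (κ 0) 0 (M.roots pub (κ 0) (x 0) 0)]) hS (down_val hj)
        ⟨fun h => by simp at h, fun _ => ⟨h1, rfl, h3⟩, fun h => by simp at h⟩ h rfl⟩
  · obtain ⟨h1, h2, h3, h4⟩ := h.2.2 rfl
    by_cases hj : j = Fin.last _
    · obtain ⟨k, z, hz⟩ := hs rfl
      subst hj
      have e1 : k = κ 0 := by rw [h3, if_neg (last_ne hS), hz.2.2.2.2.2.1]
      have e2 : z = x 0 := funext fun r => by rw [h4, hz.2.2.2.2.2.2]
      subst e1 e2
      exact ⟨_, edge3 hS (stOk_fwd hS hz) h⟩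
    · refine ⟨_, edge4 (κ' := ![M.prv (κ 1) 0 (M.roots pub (κ 1) (x 1) 0), κ 1]) hS (up_val hj) h
        ⟨fun h => by simp at h, fun h => by simp at h, fun _ => ⟨h1, h2, ?_, h4⟩⟩ rfl⟩
      rw [if_neg (ne_zero (up_val hj))]
      rfl

theorem bankS_word : bankS (wordS en pub τ κ x : _ → Sy M ν dA dB) = if τ.1 = 2 then 1 else 0 := by
  simp only [bankS, wordS_clk]

theorem readS_word (hS : Std M ν μ en pub) {b : Fin 2} (hb : selfB M ν τ b) :
    bankS (wordS en pub τ κ x : _ → Sy M ν dA dB) = b ∧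
      readS (wordS en pub τ κ x : _ → Sy M ν dA dB) = x b := by
  have h1 : bankS (wordS en pub τ κ x : _ → Sy M ν dA dB) = b := by
    rw [bankS_word]
    rcases hb with ⟨h1, rfl⟩ | ⟨h1, rfl⟩ <;> simp [h1]
  refine ⟨h1, funext fun r => funext fun ε => ?_⟩
  rw [readS, h1, wordS_vwN_one x _ hS (cnt_self hb) (r.2.trans_le hS.ok.le), hS.root,
    reg_lt M pub _ _ r.2]

end St

open St

theorem complStmt : ComplStmt := fun _ _ _ _ _ _ _ _ _ _ _ _ _ _ _ hS _ _ _ h v => pass hS h v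

theorem stepStmt : StepStmt := by
  intro m nc a dA dB F H _ _ _ M ν μ en pub hS
  have h0 : StOk (M := M) (ν := ν) pub (0, 0) ![M.st, 0] 0 :=
    ⟨fun _ => ⟨rfl, rfl, rfl⟩, fun h => by simp at h, fun h => by simp at h⟩
  refine ⟨?_, ?_, ?_, fun τ κ x h hE => ?_⟩
  · rw [← stS_eq (en := en) h0]
    exact pass hS h0
  · rw [← stS_eq (en := en) h0]
    exact exists_suc hS h0 fun h => by simp at h
  · rintro ⟨W, -, -, h1, h2⟩
    have e1 : W = fun _ => stS := funext fun v => by
      rw [← h2 v]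
      simp [preS, stS]
    have e2 := congrArg Sy.clk (h1 (0, 1, 1))
    simp only [e1, sucS, stS, mkSy_clk, if_true, if_neg (last_ne hS).symm, build, Prod.mk.injEq,
      true_and] at e2
    exact ne_zero (up_val (last_ne hS).symm) e2
  · rcases hE with hE | ⟨h1, hE⟩
    · have hp : τ.1 = 1 := by
        by_contra hp
        exact hE (exists_suc hS h fun h' => absurd h' hp)
      obtain ⟨e1, e2⟩ := readS_word (κ := κ) (x := x) hS (Or.inl ⟨hp, rfl⟩)
      rw [e1, e2, wordS_kp]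
      exact ⟨(h.2.1 hp).1, Or.inl fun hs => hE (exists_suc hS h fun _ => hs)⟩
    · have hτ : τ ≠ (0, 0) := by
        rintro rfl
        exact h1 (stS_eq h)
      have hp : τ.1 = 2 := by
        by_contra hp
        exact hE (exists_pre hS h hτ fun h' => absurd h' hp)
      obtain ⟨e1, e2⟩ := readS_word (κ := κ) (x := x) hS (Or.inr ⟨hp, rfl⟩)
      rw [e1, e2, wordS_kp]
      exact ⟨(h.2.2 hp).1, Or.inr ⟨(h.2.2 hp).2.1, fun hs => hE (exists_pre hS h hτ fun _ => hs)⟩⟩

end Vale.Agent.P330.Outer.Phys
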