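import Vale.Agent.P330.Outer.MemCor
import Vale.Agent.P330.BasicPT

/-!
P330, outer system: the decoder of the views and the majority in polynomial time.
-/

set_option linter.unusedSectionVars false

namespace Vale.Agent.P330.Outer.Phys.CorP

open Vale.Agent.Lib.PolyTime hiding C P
open Vale.Agent.Lib.Dep

open Classical in
/-- some element which passes -/
noncomputable def pick {S : Type} (t : S → Bool) : Option S :=
  if h : ∃ s, t s = true then some h.choose else none

theorem pick_some {S : Type} {t : S → Bool} {s : S} (h : pick t = some s) : t s = true := by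
  unfold pick at h
  split_ifs at h with h1
  rw [← Option.some.inj h]
  exact h1.choose_spec

theorem pick_none {S : Type} {t : S → Bool} (h : pick t = none) (s : S) : ¬ t s = true := by
  unfold pick at h
  split_ifs at h with h1
  exact fun hs => h1 ⟨s, hs⟩

/-- the point of an edge -/
def ptN {d : ℕ} (e : Bool × Fin d) : ℕ := if e.1 then d + e.2 else e.2

/-- the Vandermonde matrix of `d + 1` edges -/
def vdm {d : ℕ} (T : Fin (d + 1) → Bool × Fin d) : Matrix (Fin (d + 1)) (Fin (d + 1)) ℤ :=
  Matrix.vandermonde fun k => (ptN (T k) : ℤ)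

section Math

variable {F : Type} [Field F] {E : Type} [AddCommGroup E] [Module F E] {d : ℕ}

/-- the coefficients of the interpolation -/
noncomputable def cf (y : F) (T : Fin (d + 1) → Bool × Fin d) (i k : Fin (d + 1)) : F :=
  (((vdm T).det : ℤ) : F)⁻¹ * (((vdm T).adjugate i k : ℤ) : F) * (if (T k).1 then y else 1)⁻¹

/-- interpolation of the values on the edges `T` -/
noncomputable def interp (y : F) (w : Bool × Fin d → E) (T : Fin (d + 1) → Bool × Fin d) :
    Fin (d + 1) → E := fun i => ∑ k, cf y T i k • w (T k)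

theorem ptN_lt (e : Bool × Fin d) : ptN e < 2 * d := by
  obtain ⟨o, s⟩ := e
  have := s.2
  cases o <;> simp [ptN] <;> omega

theorem ptN_inj : Function.Injective (ptN : Bool × Fin d → ℕ) := by
  rintro ⟨o, s⟩ ⟨o', s'⟩ h
  have := s.2
  have := s'.2
  cases o <;> cases o' <;> simp [ptN, Fin.ext_iff] at h ⊢ <;> omega

theorem interp_eq {y : F} (hy : Pts d y) {T : Fin (d + 1) → Bool × Fin d}
    (hT : Function.Injective T) {P : Fin (d + 1) → E} {w : Bool × Fin d → E}
    (h : ∀ k, edgeVal y P (T k) = w (T k)) : interp y w T = P := by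
  have hdet : (((vdm T).det : ℤ) : F) ≠ 0 := by
    have h1 : (((vdm T).det : ℤ) : F) = (Matrix.vandermonde fun k => (ptN (T k) : F)).det := by
      rw [← eq_intCast (Int.castRingHom F), RingHom.map_det]
      congr 1
      ext i j
      simp [vdm]
    rw [h1, Matrix.det_vandermonde_ne_zero_iff]
    exact fun i j e => hT (ptN_inj (hy.inj _ _ (ptN_lt _) (ptN_lt _) e))
  funext i
  have h2 : ∀ k, cf y T i k • w (T k) = ∑ j : Fin (d + 1), ((((vdm T).det : ℤ) : F)⁻¹ *
      ((((vdm T).adjugate i k * vdm T k j : ℤ)) : F)) • P j := by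
    intro k
    have h3 : (if (T k).1 then y else 1) ≠ 0 := by
      split_ifs
      · exact hy.ne
      · exact one_ne_zero
    rw [← h k, edgeVal, smul_smul, cf, mul_assoc _ _ (if (T k).1 then y else 1),
      inv_mul_cancel₀ h3, mul_one, Finset.smul_sum]
    refine Finset.sum_congr rfl fun j _ => ?_
    rw [smul_smul]
    congr 1
    simp [vdm, ptN, mul_assoc]
  rw [interp, Finset.sum_congr rfl fun k _ => h2 k, Finset.sum_comm]
  have h4 : ∀ j, ∑ k, ((((vdm T).det : ℤ) : F)⁻¹ *
      ((((vdm T).adjugate i k * vdm T k j : ℤ)) : F)) • P j = (if i = j then 1 else 0 : F) • P j := by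
    intro j
    rw [← Finset.sum_smul, ← Finset.mul_sum, ← Int.cast_sum, ← Matrix.mul_apply,
      Matrix.adjugate_mul, Matrix.smul_apply, Matrix.one_apply]
    split_ifs
    · rw [smul_eq_mul, mul_one, inv_mul_cancel₀ hdet]
    · simp
  rw [Finset.sum_congr rfl fun j _ => h4 j]
  simp

open Classical in
/-- the decoder by search over all sets of `d + 1` edges -/
noncomputable def cdec (y : F) (w : Bool × Fin d → E) : Fin (d + 1) → E :=
  (pick fun T => decide (frac (fun e => edgeVal y (interp y w T) e ≠ w e) ≤ 1 / 5)).elim 0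
    (interp y w)

theorem cdec_eq {y : F} (hy : Pts d y) (hd : 0 < d) (w : Bool × Fin d → E) :
    cdec y w = decP y w := by
  classical
  unfold cdec
  rcases e : pick fun T => decide (frac (fun e => edgeVal y (interp y w T) e ≠ w e) ≤ 1 / 5) with
    _ | T
  · rw [decP, dif_neg]
    · rfl
    rintro ⟨P, hP⟩
    have : Nonempty (Fin d) := ⟨⟨0, hd⟩⟩
    have h1 := (frac_le_div_iff (fun e => edgeVal y P e ≠ w e) 1 (n := 5) (by omega)).1
      (by simpa using hP)
    have h2 := Finset.card_filter_add_card_filter_not (s := Finset.univ)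
      fun e : Bool × Fin d => edgeVal y P e ≠ w e
    simp only [Finset.card_univ, Fintype.card_prod, Fintype.card_bool, Fintype.card_fin] at h1 h2
    obtain ⟨s, hs, hc⟩ := Finset.exists_subset_card_eq
      (s := Finset.univ.filter fun e : Bool × Fin d => ¬ edgeVal y P e ≠ w e) (n := d + 1)
      (by omega)
    have h3 : interp y w (fun k => ((s.equivFinOfCardEq hc).symm k : Bool × Fin d)) = P :=
      interp_eq hy (Subtype.val_injective.comp (s.equivFinOfCardEq hc).symm.injective) fun k => by
        simpa using hs ((s.equivFinOfCardEq hc).symm k).2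
    refine pick_none e (fun k => ((s.equivFinOfCardEq hc).symm k : Bool × Fin d)) ?_
    rw [h3]
    simpa using hP
  · exact (MCor.decP_eq hy hd (by simpa using pick_some e)).symm

open Classical in
/-- the value which more than half of the places have -/
noncomputable def maj {S : Type} [Fintype S] (w : S → F) : F :=
  (pick fun e => decide (frac (fun e' => w e' ≠ w e) < 1 / 2)).elim 0 w

theorem maj_eq {S : Type} [Fintype S] [Nonempty S] {w : S → F} {z : F}
    (h : frac (fun e => w e ≠ z) < 1 / 2) : maj w = z := by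
  classical
  unfold maj
  rcases e : pick fun e => decide (frac (fun e' => w e' ≠ w e) < 1 / 2) with _ | s
  · exfalso
    have h1 : ∀ s, w s ≠ z := fun s hs => pick_none e s (by simpa [hs] using h)
    rw [frac_eq_one h1] at h
    norm_num at h
  · have h1 : frac (fun e' => w e' ≠ w s) < 1 / 2 := by simpa using pick_some e
    by_contra hne
    have h2 := frac_le_add (p := fun _ : S => True) (q := fun e => w e ≠ z)
      (r := fun e => w e ≠ w s) fun e _ => by
        by_contra hc
        simp only [not_or, not_not, ne_eq] at hc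
        exact hne (hc.2.symm.trans hc.1)
    rw [frac_true] at h2
    linarith

end Math

section PT

variable {α : Type} [Enc α] {p : α → ℕ} [∀ a, Fact (p a).Prime] {I : α → Type} [∀ a, Enc (I a)]
  [∀ a, En (I a)] {K : Type} [Fintype K] {d : ℕ}

/-- The entries are computable. -/
def Ent (f : ∀ a, K → I a → ZMod (p a)) : Prop := ∀ k, DPT fun x : Σ a, I a => f x.1 k x.2

theorem dpt_intCast (hp : DPT p) (n : ℤ) : DPT fun a => (n : ZMod (p a)) := by
  rcases Int.natAbs_eq n with h | h
  · exact (DPT.natCast (PTRing.zmod hp) (DPT.const n.natAbs)).congr fun a => by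
      conv_rhs => rw [h]
      simp
  · exact (DPT.neg (PTRing.zmod hp) (DPT.natCast (PTRing.zmod hp) (DPT.const n.natAbs))).congr
      fun a => by
        conv_rhs => rw [h]
        simp

theorem Ent.sum_smul (hp : DPT p) {J : Type} [Fintype J] {c : ∀ a, J → ZMod (p a)}
    {f : ∀ a, J → K → I a → ZMod (p a)} (hc : ∀ j, DPT fun a => c a j)
    (hf : ∀ j, Ent fun a => f a j) : Ent fun a => ∑ j, c a j • f a j := by
  intro k
  have hR := PTRing.zmod (hp.comp (DPT.id.sfst (β := I)))
  refine (DPT.sum hR (dpt_mapConst (Finset.univ.toList : List J)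
    (f := fun j (x : Σ a, I a) => c x.1 j * f x.1 j k x.2)
    fun j _ => DPT.mul hR ((hc j).comp DPT.id.sfst) (hf j k))).congr fun x => ?_
  rw [Finset.sum_map_toList]
  simp [Finset.sum_apply]

theorem Ent.smul (hp : DPT p) {c : ∀ a, ZMod (p a)} {f : ∀ a, K → I a → ZMod (p a)} (hc : DPT c)
    (hf : Ent f) : Ent fun a => c a • f a := fun k =>
  DPT.mul (PTRing.zmod (hp.comp DPT.id.sfst)) (hc.comp DPT.id.sfst) (hf k)

theorem Ent.edgeVal (hp : DPT p) {y : ∀ a, ZMod (p a)}
    {P : ∀ a, Fin (d + 1) → K → I a → ZMod (p a)} (hy : DPT y) (hP : ∀ i, Ent fun a => P a i)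
    (e : Bool × Fin d) : Ent fun a => edgeVal (y a) (P a) e := by
  refine Ent.smul hp ?_ (Ent.sum_smul hp (fun i => ?_) hP)
  · cases e.1
    · exact DPT.one (PTRing.zmod hp)
    · exact hy
  · exact (DPT.natCast (PTRing.zmod hp) (DPT.const (ptN e ^ (i : ℕ)))).congr fun a => by
      simp [ptN]

theorem Ent.interp (hp : DPT p) {y : ∀ a, ZMod (p a)}
    {w : ∀ a, Bool × Fin d → K → I a → ZMod (p a)} (hy : DPT y) (hw : ∀ e, Ent fun a => w a e)
    (T : Fin (d + 1) → Bool × Fin d) (i : Fin (d + 1)) : Ent fun a => interp (y a) (w a) T i := by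
  refine Ent.sum_smul hp (fun k => ?_) fun k => hw (T k)
  have hR := PTRing.zmod hp
  refine DPT.mul hR (DPT.mul hR (DPT.zmodInv hp (dpt_intCast hp _)) (dpt_intCast hp _))
    (DPT.zmodInv hp ?_)
  cases (T k).1
  · exact DPT.one hR
  · exact hy

theorem Ent.ne (hI : DPT fun a => elems (I a)) {f g : ∀ a, K → I a → ZMod (p a)} (hf : Ent f)
    (hg : Ent g) : DPr fun a => f a ≠ g a :=
  (dpr_forall_const fun k => dpr_forall (q := fun a x => f a k x = g a k x) hI
    (DPr.eq (hf k) (hg k))).not.congr fun a => by simp only [ne_eq, funext_iff]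

theorem dpr_frac {S : Type} [Fintype S] (r : ℝ → Prop) {q : α → S → Prop}
    (hq : ∀ s, DPr fun a => q a s) : DPr fun a => r (frac (q a)) := by
  classical
  have h1 : DPT fun a (s : S) => decide (q a s) := dpt_piMk fun s => DPT.decide (hq s)
  exact (dpr_finComp (fun t : S → Bool => r (frac fun s => t s = true)) h1).congr fun a => by simp

theorem dpt_pick {S : Type} [Fintype S] {T : α → Type} [∀ a, Enc (T a)] {t : α → S → Bool}
    {z : ∀ a, T a} {f : ∀ a, S → T a} (ht : ∀ s, DPT fun a => t a s) (hz : DPT z)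
    (hf : ∀ s, DPT fun a => f a s) : DPT fun a => (pick (t a)).elim (z a) (f a) := by
  refine dpt_cases (f := fun t a => (pick t).elim (z a) (f a)) (dpt_piMk ht) fun t => ?_
  cases pick t
  · exact hz
  · exact hf _

theorem Ent.cdec (hp : DPT p) (hI : DPT fun a => elems (I a)) {y : ∀ a, ZMod (p a)}
    {w : ∀ a, Bool × Fin d → K → I a → ZMod (p a)} (hy : DPT y) (hw : ∀ e, Ent fun a => w a e)
    (i : Fin (d + 1)) : Ent fun a => cdec (y a) (w a) i := by
  classical
  intro k
  refine (dpt_pick (α := Σ a, I a) (T := fun x => ZMod (p x.1))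
    (t := fun x T => decide (frac (fun e => Outer.edgeVal (y x.1) (CorP.interp (y x.1) (w x.1) T) e ≠
      w x.1 e) ≤ 1 / 5)) (z := fun _ => 0)
    (f := fun x T => CorP.interp (y x.1) (w x.1) T i k x.2) (fun T => ?_)
    (DPT.zero (PTRing.zmod (hp.comp DPT.id.sfst))) fun T => Ent.interp hp hy hw T i k).congr
    fun x => ?_
  · exact (DPT.decide (dpr_frac (fun r => r ≤ 1 / 5) fun e =>
      Ent.ne hI (Ent.edgeVal hp hy (Ent.interp hp hy hw T) e) (hw e))).comp DPT.id.sfst
  · simp only [CorP.cdec]
    cases pick _ <;> rfl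

theorem dpt_maj (hp : DPT p) {S : Type} [Fintype S] {w : ∀ a, S → ZMod (p a)}
    (hw : ∀ s, DPT fun a => w a s) : DPT fun a => maj (w a) := by
  classical
  exact dpt_pick (fun s => DPT.decide (dpr_frac (fun r => r < 1 / 2) fun s' =>
    DPr.ne (hw s') (hw s))) (DPT.zero (PTRing.zmod hp)) hw

end PT

end Vale.Agent.P330.Outer.Phys.CorP
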