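import Vale.Agent.P330.Outer.GrpDefs

/-!
P330, outer system: the physical realisation of a machine with control on the memory code.
Definitions for one instance and the statements of the parts.
-/

namespace Vale.Agent.P330.Outer.Phys

open Vale.Agent.Lib.PolyTime hiding C P
open Vale.Agent.Lib.Dep
open Vale.Agent.P330.Bohr

/-- Navigation in the group: generators, base points, the frame of a direction, depth and parent
in a spanning tree. -/
structure Nav (m a : ℕ) (H : Type) where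
  /-- generators -/
  gen : Fin a → H
  /-- base points -/
  base : Fin 16 → Fin m
  /-- the frame in which a direction is a base point -/
  fr : Fin m → Fin 16 × H
  /-- bound for the depth -/
  D : ℕ
  /-- the depth -/
  dep : H → ℕ
  /-- the inverse of the generator which leads to the parent (`none` at the root) -/
  par : H → Option (Fin a)

/-- the properties of the navigation data -/
structure Nav.Ok {m a : ℕ} {H : Type} [Group H] [MulAction H (Fin m)] (ν : Nav m a H) : Prop where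
  fr : ∀ ω, (ν.fr ω).2 • ω = ν.base (ν.fr ω).1
  lt : ∀ h, ν.dep h < ν.D
  root : ∀ h, ν.par h = none ↔ h = 1
  par : ∀ h i, ν.par h = some i → ν.dep ((ν.gen i)⁻¹ * h) < ν.dep h

/-- indices of the sites which are read -/
abbrev RI (a dA dB : ℕ) : Type :=
  Unit ⊕ (Fin dA ⊕ Fin dB) ⊕ (Fin 4 × Fin a) ⊕ Fin 16 ⊕ ((Bool × Fin dA) × Bool × Fin dB)

/-- clock values: phase (`0` initial, `1` forward, `2` backward) and counter -/
abbrev Ck (N : ℕ) : Type := Fin 3 × Fin (N + 1)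

/-- registers: bank, number, frame -/
abbrev Rg (n : ℕ) (H : Type) : Type := Fin 2 × Fin n × H

/-- index set of the symbols: clock, two controls, views -/
abbrev JI (N nc n dA dB : ℕ) (H : Type) : Type :=
  (Ck N ⊕ Fin 2 × Fin nc) ⊕ Rg n H × Fin (dA + 1) × Fin (dB + 1)

/-- index set of the constants: the point of the cube, the multipliers, the public views -/
abbrev JC (m n dA dB : ℕ) : Type := (Fin m ⊕ Fin 2) ⊕ Fin n × Fin (dA + 1) × Fin (dB + 1)

section One

variable {m nc a dA dB : ℕ} {F H : Type} [Field F] [Group H] [MulAction H (Fin m)]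

/-- the sites which are read -/
def rdS (μ : Mem (Gam m) H F dA dB) (ν : Nav m a H) (v : Site (Gam m) H) :
    RI a dA dB → Site (Gam m) H
  | .inl _ => v
  | .inr (.inl (.inl s)) => mvA (μ.SA s) v
  | .inr (.inl (.inr s)) => mvB (μ.SB s) v
  | .inr (.inr (.inl x)) => ![tau (ν.gen x.2) v, tau (ν.gen x.2)⁻¹ v, mvA (0, ν.gen x.2) v,
      mvB (0, ν.gen x.2) v] x.1
  | .inr (.inr (.inr (.inl i))) => shf (eV (ν.base i)) v
  | .inr (.inr (.inr (.inr e))) => mvB (gen2 μ.SB e.2) (mvA (gen2 μ.SA e.1) v)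

variable (M : GM m nc F) (ν : Nav m a H)

/-- number of building steps -/
abbrev NN : ℕ := M.n * ν.D

/-- symbols -/
abbrev Sy (dA dB : ℕ) : Type := Vec (JI (NN M ν) nc M.n dA dB H) F

/-- constants -/
abbrev Cs (dA dB : ℕ) : Type := Vec (JC m M.n dA dB) F

variable {M ν}

/-- the clock vector of a symbol -/
def Sy.ck (y : Sy M ν dA dB) : Ck (NN M ν) → F := fun τ => y (.inl (.inl τ))

/-- the control of the bank `b` -/
def Sy.kp (y : Sy M ν dA dB) (b : Fin 2) : Vec (Fin nc) F := fun i => y (.inl (.inr (b, i)))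

/-- the view of a register -/
def Sy.vw (y : Sy M ν dA dB) (ρ : Rg M.n H) : View dA dB F := fun i j => y (.inr (ρ, i, j))

/-- the view of the register with number `i` if `i < n`, else zero -/
def Sy.vwN (y : Sy M ν dA dB) (b : Fin 2) (i : ℕ) (h : H) : View dA dB F :=
  if hi : i < M.n then y.vw (b, ⟨i, hi⟩, h) else 0

/-- the symbol with the given parts -/
def mkSy (τ : Ck (NN M ν)) (κ : Fin 2 → Vec (Fin nc) F) (w : Rg M.n H → View dA dB F) :
    Sy M ν dA dB
  | .inl (.inl τ') => if τ' = τ then 1 else 0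
  | .inl (.inr x) => κ x.1 x.2
  | .inr x => w x.1 x.2.1 x.2.2

open Classical in
/-- the clock value: the first nonzero place -/
noncomputable def Sy.clk (y : Sy M ν dA dB) : Ck (NN M ν) :=
  ((elems (Ck (NN M ν))).find? fun τ => decide (y.ck τ ≠ 0)).getD (0, 0)

/-- the values at the site of all registers of the bank `b` -/
def Sy.roots (y : Sy M ν dA dB) (b : Fin 2) : List F :=
  (List.range M.n).map fun i => y.vwN b i 1 (Fin.last dA) (Fin.last dB)

open Classical in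
/-- the point of the cube -/
noncomputable def Cs.pt (c : Cs M dA dB) : Gam m := fun i => if c (.inl (.inl i)) = 0 then 0 else 1

/-- the multipliers -/
def Cs.y (c : Cs M dA dB) (i : Fin 2) : F := c (.inl (.inr i))

/-- the view of the public word `i` -/
def Cs.pub (c : Cs M dA dB) (i : ℕ) : View dA dB F :=
  if hi : i < M.n then fun k l => c (.inr (⟨i, hi⟩, k, l)) else 0

variable (M ν)

/-- the frame in which the register `i` is computed first -/
def frame0 (κ : Vec (Fin nc) F) (i : ℕ) : H :=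
  if i < M.k then 1 else match M.ins κ i with
    | .inr (.inl c) => (ν.fr c.1).2
    | _ => 1

/-- the step in which the register is built -/
def ord (κ : Vec (Fin nc) F) (i : ℕ) (h : H) : ℕ := i * ν.D + ν.dep (h * (frame0 M ν κ i)⁻¹)

/-- the number of steps which have been done in the bank `b` -/
def cnt (τ : Ck (NN M ν)) (b : Fin 2) : ℕ :=
  if τ.1 = 0 then (if b = 0 then τ.2 else 0) else
    if τ.1 = 1 then (if b = 0 then NN M ν else τ.2) else if b = 0 then τ.2 else NN M ν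

/-- The bank `b` is the complete one, which carries the state. -/
def selfB (τ : Ck (NN M ν)) (b : Fin 2) : Prop := (τ.1 = 1 ∧ b = 0) ∨ (τ.1 = 2 ∧ b = 1)

variable {M ν}

/-- The source of the given register `i` of the bank `b` in the phase `ph`, read in the symbol
`y` of the site. -/
def srcV (y : Sy M ν dA dB) (ph : Fin 3) (b : Fin 2) (i : ℕ) : View dA dB F :=
  if ph = 0 then 0 else
    if ph = 1 then (if b = 0 then y.vwN 0 i 1 else y.vwN 0 (M.sucR (y.kp 0) i) 1)
    else if b = 0 then y.vwN 1 (M.preR (y.kp 1) i) 1 else y.vwN 1 i 1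

/-- The value which the register `(b, i, h)` gets from earlier registers, when the control of
the bank is `κ`. -/
def defV (c : Cs M dA dB) (Y : RI a dA dB → Sy M ν dA dB) (ph : Fin 3) (κ : Vec (Fin nc) F)
    (b : Fin 2) (i : ℕ) (h : H) : View dA dB F :=
  match ν.par (h * (frame0 M ν κ i)⁻¹) with
  | some s => (Y (.inr (.inr (.inl (1, s))))).vwN b i ((ν.gen s)⁻¹ * h)
  | none =>
    if i < M.k then srcV (Y (.inl ())) ph b i else match M.ins κ i with
      | .inl l => (l.map fun x => if x.2 < i then x.1 • (Y (.inl ())).vwN b x.2 1 else 0).sum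
      | .inr (.inl x) =>
        if x.2 < i then (Y (.inr (.inr (.inr (.inl (ν.fr x.1).1))))).vwN b x.2 h else 0
      | .inr (.inr l) => c.pub l

/-- The conditions on the controls. -/
def CtlOk (c : Cs M dA dB) (y : Sy M ν dA dB) : Prop :=
  (y.clk.1 = 0 → y.kp 0 = M.st ∧ y.kp 1 = 0) ∧
  (y.clk.1 = 1 → y.kp 1 = if y.clk.2 = 0 then 0 else M.nxt (y.kp 0) c.pt (y.roots 0)) ∧
  (y.clk.1 = 2 → y.kp 1 ≠ M.st ∧
    y.kp 0 = if y.clk.2 = 0 then 0 else M.prv (y.kp 1) c.pt (y.roots 1))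

/-- The test at a site. -/
structure Test (c : Cs M dA dB) (Y : RI a dA dB → Sy M ν dA dB) : Prop where
  hot : ∀ τ, (Y (.inl ())).ck τ = if τ = (Y (.inl ())).clk then 1 else 0
  eqc : ∀ s j, Y (.inr (.inl s)) (.inl j) = Y (.inl ()) (.inl j)
  edgeA : ∀ s ρ, edgeVal (c.y 0) ((Y (.inl ())).vw ρ) (true, s) =
    edgeVal (c.y 0) ((Y (.inr (.inl (.inl s)))).vw ρ) (false, s)
  edgeB : ∀ s ρ, edgeVal (c.y 1) ((Y (.inl ())).vw ρ).tr (true, s) =
    edgeVal (c.y 1) ((Y (.inr (.inl (.inr s)))).vw ρ).tr (false, s)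
  regs : ∀ ρ : Rg M.n H, (Y (.inl ())).vw ρ =
    if ord M ν ((Y (.inl ())).kp ρ.1) ρ.2.1 ρ.2.2 < cnt M ν (Y (.inl ())).clk ρ.1 then
      defV c Y (Y (.inl ())).clk.1 ((Y (.inl ())).kp ρ.1) ρ.1 ρ.2.1 ρ.2.2 else 0
  frames : ∀ b, selfB M ν (Y (.inl ())).clk b → ∀ i < M.k, ∀ h s,
    (Y (.inr (.inr (.inl (0, s))))).vwN b i (ν.gen s * h) = (Y (.inl ())).vwN b i h ∧
    (Y (.inr (.inr (.inl (2, s))))).vwN b i h (Fin.last dA) =
      (Y (.inl ())).vwN b i h (Fin.last dA) ∧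
    ((Y (.inr (.inr (.inl (3, s))))).vwN b i h).tr (Fin.last dB) =
      ((Y (.inl ())).vwN b i h).tr (Fin.last dB)
  valid : ∀ b, selfB M ν (Y (.inl ())).clk b →
    M.rt ((Y (.inl ())).kp b) c.pt ((Y (.inl ())).roots b) = true ∧
      ∀ i < M.n, M.zero ((Y (.inl ())).kp b) i = true → (Y (.inl ())).vwN b i 1 = 0
  ctl : CtlOk c (Y (.inl ()))

/-- One building step in the bank `b` with the control `κ`; the new clock is `τ`. -/
noncomputable def build (c : Cs M dA dB) (Y : RI a dA dB → Sy M ν dA dB) (b : Fin 2)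
    (κ : Vec (Fin nc) F) (τ : Ck (NN M ν)) : Sy M ν dA dB :=
  mkSy τ (Function.update (Y (.inl ())).kp b κ) fun ρ =>
    if ρ.1 = b ∧ ord M ν κ ρ.2.1 ρ.2.2 = (Y (.inl ())).clk.2 then
      defV c Y (Y (.inl ())).clk.1 κ b ρ.2.1 ρ.2.2 else (Y (.inl ())).vw ρ

/-- The last building step in the bank `b` is undone; the control becomes `κ`, the clock `τ`. -/
noncomputable def erase (y : Sy M ν dA dB) (b : Fin 2) (κ : Vec (Fin nc) F) (τ : Ck (NN M ν)) :
    Sy M ν dA dB :=
  mkSy τ (Function.update y.kp b κ) fun ρ =>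
    if ρ.1 = b ∧ ord M ν (y.kp b) ρ.2.1 ρ.2.2 + 1 = y.clk.2 then 0 else y.vw ρ

/-- The banks are exchanged. -/
def swap (y : Sy M ν dA dB) (τ : Ck (NN M ν)) : Sy M ν dA dB :=
  mkSy τ (fun b => y.kp b.rev) fun ρ => y.vw (ρ.1.rev, ρ.2)

/-- the counter plus one -/
def up {N : ℕ} (j : Fin (N + 1)) : Fin (N + 1) := ⟨min (j + 1) N, by omega⟩

/-- the counter minus one -/
def down {N : ℕ} (j : Fin (N + 1)) : Fin (N + 1) := ⟨j - 1, by omega⟩

/-- the successor rule -/
noncomputable def sucS (c : Cs M dA dB) (Y : RI a dA dB → Sy M ν dA dB) : Sy M ν dA dB :=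
  let y := Y (.inl ())
  if y.clk.1 = 0 then
    (if y.clk.2 = Fin.last _ then mkSy (1, 0) y.kp y.vw else build c Y 0 (y.kp 0) (0, up y.clk.2))
  else if y.clk.1 = 1 then
    (if y.clk.2 = Fin.last _ then mkSy (2, Fin.last _) y.kp y.vw
    else build c Y 1 (M.nxt (y.kp 0) c.pt (y.roots 0)) (1, up y.clk.2))
  else if y.clk.2 = 0 then swap y (1, 0)
  else erase y 0 (if down y.clk.2 = 0 then 0 else y.kp 0) (2, down y.clk.2)

open Classical in
/-- the predecessor rule -/
noncomputable def preS (c : Cs M dA dB) (Y : RI a dA dB → Sy M ν dA dB) : Sy M ν dA dB :=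
  let y := Y (.inl ())
  if y.clk.1 = 0 then (if y.clk.2 = 0 then y else erase y 0 (y.kp 0) (0, down y.clk.2))
  else if y.clk.1 = 1 then
    (if y.clk.2 = 0 then (if y.kp 0 = M.st then mkSy (0, Fin.last _) y.kp y.vw else swap y (2, 0))
    else erase y 1 (if down y.clk.2 = 0 then 0 else y.kp 1) (1, down y.clk.2))
  else if y.clk.2 = Fin.last _ then mkSy (1, Fin.last _) y.kp y.vw
  else build c Y 0 (M.prv (y.kp 1) c.pt (y.roots 1)) (2, up y.clk.2)

/-- the start symbol -/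
def stS : Sy M ν dA dB := mkSy (0, 0) ![M.st, 0] 0

open Classical in
/-- the constants of a site -/
noncomputable def cstS (μ : Mem (Gam m) H F dA dB) (en : (Gam m → F) → Site (Gam m) H → View dA dB F)
    (pub : ℕ → Gam m → F) (v : Site (Gam m) H) : Cs M dA dB
  | .inl (.inl i) => if v.1 i = 0 then 0 else 1
  | .inl (.inr i) => ![μ.yA, μ.yB] i
  | .inr x => en (pub x.1) v x.2.1 x.2.2

/-- The word with clock `τ`, controls `κ` and given registers `x`. -/
def wordS (en : (Gam m → F) → Site (Gam m) H → View dA dB F) (pub : ℕ → Gam m → F)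
    (τ : Ck (NN M ν)) (κ : Fin 2 → Vec (Fin nc) F) (x : Fin 2 → Fin M.k → Gam m → F)
    (v : Site (Gam m) H) : Sy M ν dA dB :=
  mkSy τ κ fun ρ => if ord M ν (κ ρ.1) ρ.2.1 ρ.2.2 < cnt M ν τ ρ.1 then
    en (M.reg pub (κ ρ.1) (x ρ.1) ρ.2.1) (tau ρ.2.2⁻¹ v) else 0

/-- The states. -/
def StOk (pub : ℕ → Gam m → F) (τ : Ck (NN M ν)) (κ : Fin 2 → Vec (Fin nc) F)
    (x : Fin 2 → Fin M.k → Gam m → F) : Prop :=
  (τ.1 = 0 → κ 0 = M.st ∧ κ 1 = 0 ∧ x 0 = 0) ∧
  (τ.1 = 1 → M.Valid pub (κ 0) (x 0) ∧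
    (κ 1 = if τ.2 = 0 then 0 else M.nxt (κ 0) 0 (M.roots pub (κ 0) (x 0) 0)) ∧
    ∀ r, x 1 r = M.reg pub (κ 0) (x 0) (M.sucR (κ 0) r)) ∧
  (τ.1 = 2 → M.Valid pub (κ 1) (x 1) ∧ κ 1 ≠ M.st ∧
    (κ 0 = if τ.2 = 0 then 0 else M.prv (κ 1) 0 (M.roots pub (κ 1) (x 1) 0)) ∧
    ∀ r, x 0 r = M.reg pub (κ 1) (x 1) (M.preR (κ 1) r))

/-- The test is passed at the site `v`. -/
def Pass (μ : Mem (Gam m) H F dA dB) (en : (Gam m → F) → Site (Gam m) H → View dA dB F)
    (pub : ℕ → Gam m → F) (W : Site (Gam m) H → Sy M ν dA dB) (v : Site (Gam m) H) : Prop :=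
  Test (cstS μ en pub v) fun r => W (rdS μ ν v r)

/-- the edges of the physical system -/
def StepS (μ : Mem (Gam m) H F dA dB) (en : (Gam m → F) → Site (Gam m) H → View dA dB F)
    (pub : ℕ → Gam m → F) (W W' : Site (Gam m) H → Sy M ν dA dB) : Prop :=
  (∀ v, Pass μ en pub W v) ∧ (∀ v, Pass μ en pub W' v) ∧
    (∀ v, sucS (cstS μ en pub v) (fun r => W (rdS μ ν v r)) = W' v) ∧
    ∀ v, preS (cstS μ en pub v) (fun r => W' (rdS μ ν v r)) = W v

/-- the bank which carries the state -/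
noncomputable def bankS (W : Site (Gam m) H → Sy M ν dA dB) : Fin 2 :=
  if (W (0, 1, 1)).clk.1 = 2 then 1 else 0

/-- the given registers which are read from a word -/
noncomputable def readS (W : Site (Gam m) H → Sy M ν dA dB) : Fin M.k → Gam m → F :=
  fun r ε => (W (ε, 1, 1)).vwN (bankS W) r 1 (Fin.last dA) (Fin.last dB)

variable (M ν)

/-- The standing assumptions for one instance. -/
structure Std (μ : Mem (Gam m) H F dA dB) (en : (Gam m → F) → Site (Gam m) H → View dA dB F)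
    (pub : ℕ → Gam m → F) : Prop where
  ok : M.Ok pub
  nav : ν.Ok
  enc : ∀ x, μ.IsEnc x (en x)
  uniq : ∀ (x : Gam m → F) X, μ.IsEnc x X → X = en x
  half : ∀ (x : Gam m → F) (ε : Gam m) (h h' k : H),
    en x (ε, h, k) (Fin.last dA) = en x (ε, h', k) (Fin.last dA) ∧
      (en x (ε, k, h)).tr (Fin.last dB) = (en x (ε, k, h')).tr (Fin.last dB)

end One

/-- P1: the words of the states pass all tests. -/
def ComplStmt : Prop :=
  ∀ (m nc a dA dB : ℕ) (F H : Type) [Field F] [Group H] [MulAction H (Fin m)] (M : GM m nc F)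
    (ν : Nav m a H) (μ : Mem (Gam m) H F dA dB) (en : _) (pub : _), Std M ν μ en pub →
    ∀ τ κ x, StOk (M := M) (ν := ν) pub τ κ x → ∀ v, Pass μ en pub (wordS en pub τ κ x) v

/-- P2: soundness. -/
def SoundStmt : Prop :=
  ∃ lB : ℝ, 0 < lB ∧ ∀ dB : ℕ, ∃ lA : ℝ, 0 < lA ∧ ∀ (dA a : ℕ) (γ : ℝ), 0 < γ →
    ∃ θ0 C : ℝ, 0 < θ0 ∧ 0 ≤ C ∧
      ∀ (m nc : ℕ) (F H : Type) [Field F] [Group H] [Fintype H] [MulAction H (Fin m)]
        (M : GM m nc F) (ν : Nav m a H) (μ : Mem (Gam m) H F dA dB) (en : _) (pub : _),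
        Std M ν μ en pub → μ.Ok lA lB → HPoinc γ ν.gen →
        ∀ (W : Site (Gam m) H → Sy M ν dA dB) (θ : ℝ), θ ≤ θ0 →
          frac (fun v => ¬ Pass μ en pub W v) ≤ θ →
          ∃ τ κ x, StOk (M := M) (ν := ν) pub τ κ x ∧
            frac (fun v => W v ≠ wordS en pub τ κ x v) ≤ C * θ

/-- P3: the steps between the words of the states. -/
def StepStmt : Prop :=
  ∀ (m nc a dA dB : ℕ) (F H : Type) [Field F] [Group H] [MulAction H (Fin m)] (M : GM m nc F)
    (ν : Nav m a H) (μ : Mem (Gam m) H F dA dB) (en : _) (pub : _), Std M ν μ en pub →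
    (∀ v, Pass (M := M) (ν := ν) μ en pub (fun _ => stS) v) ∧
    (∃ W, StepS (M := M) (ν := ν) μ en pub (fun _ => stS) W) ∧
    (¬ ∃ W, StepS (M := M) (ν := ν) μ en pub W fun _ => stS) ∧
    ∀ τ κ x, StOk (M := M) (ν := ν) pub τ κ x →
      ((¬ ∃ W', StepS μ en pub (wordS en pub τ κ x) W') ∨
        (wordS en pub τ κ x ≠ (fun _ => stS) ∧ ¬ ∃ W', StepS μ en pub W' (wordS en pub τ κ x))) →
      M.End pub ((wordS en pub τ κ x (0, 1, 1)).kp (bankS (wordS en pub τ κ x)))
        (readS (wordS en pub τ κ x))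

/-- P4: navigation data in polynomial time. -/
def NavStmt : Prop :=
  ∀ (π : Par) (g : GP π), ∃ ν : ∀ b, Nav (π.m b) g.a (g.H.T b),
    (∀ b, (ν b).Ok ∧ (ν b).gen = g.gen b ∧ (ν b).base = g.base b) ∧
    DPT (fun b => (ν b).D) ∧ PBd (fun b => (ν b).D) ∧
    DPT (fun x : Σ b, Fin (π.m b) => (ν x.1).fr x.2) ∧
    DPT (fun x : Σ b, g.H.T b => (ν x.1).dep x.2) ∧ DPT fun x : Σ b, g.H.T b => (ν x.1).par x.2

/-- Polynomial time navigation data. -/
structure NavPT {π : Par} {g : GP π} (ν : ∀ b, Nav (π.m b) g.a (g.H.T b)) : Prop where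
  gen : ∀ b, (ν b).gen = g.gen b
  base : ∀ b, (ν b).base = g.base b
  ptD : DPT fun b => (ν b).D
  pbD : PBd fun b => (ν b).D
  fr : DPT fun x : Σ b, Fin (π.m b) => (ν x.1).fr x.2
  dep : DPT fun x : Σ b, g.H.T b => (ν x.1).dep x.2
  par : DPT fun x : Σ b, g.H.T b => (ν x.1).par x.2

/-- P5: the correction rule. -/
def PCorStmt : Prop :=
  ∃ l h0 : ℝ, 0 < l ∧ 0 < h0 ∧ ∀ (π : Par) (g : GP π) (dA dB : ℕ) (nc : π.β → ℕ)
    (M : ∀ b, GM (π.m b) (nc b) (ZMod (π.p b))) (pub : _) (dec : _)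
    (ν : ∀ b, Nav (π.m b) g.a (g.H.T b)), GMOk π nc M pub dec → NavPT ν →
    ∃ cor : ∀ b, Cs (M b) dA dB → (RI g.a dA dB → Sy (M b) (ν b) dA dB) → Sy (M b) (ν b) dA dB,
      DPT (fun x : Σ b, Cs (M b) dA dB × (RI g.a dA dB → Sy (M b) (ν b) dA dB) =>
        cor x.1 x.2.1 x.2.2) ∧
      ∀ b (μ : Mem (Gam (π.m b)) (g.H.T b) (ZMod (π.p b)) dA dB) (en : _) (pb : _),
        Std (M b) (ν b) μ en pb → μ.Ok l l → ∀ τ κ x (B : Site (Gam (π.m b)) (g.H.T b) → Prop),
          frac B ≤ h0 → frac (fun v => ∃ W' : _ → Sy (M b) (ν b) dA dB,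
            (∀ u, ¬ B u → W' u = wordS en pb τ κ x u) ∧
            cor b (cstS μ en pb v) (fun r => W' (rdS μ (ν b) v r)) ≠ wordS en pb τ κ x v) ≤
            frac B / 2

/-- P5: the distance of the words of the states. -/
def PDistStmt : Prop :=
  ∀ (m nc a dA dB : ℕ) (F H : Type) [Field F] [Group H] [Fintype H] [MulAction H (Fin m)]
    (M : GM m nc F) (ν : Nav m a H) (μ : Mem (Gam m) H F dA dB) (en : _) (pub : _),
    Std M ν μ en pub → μ.Ok (1 / 100) (1 / 100) → ∀ τ κ x τ' κ' x',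
      wordS (M := M) (ν := ν) en pub τ κ x ≠ wordS en pub τ' κ' x' →
      1 / 10 ≤ frac fun v => wordS (M := M) (ν := ν) en pub τ κ x v ≠ wordS en pub τ' κ' x' v

open Classical in
/-- P6: test, successor and predecessor are computable in polynomial time. -/
def PPTStmt : Prop :=
  ∀ (π : Par) (g : GP π) (dA dB : ℕ) (nc : π.β → ℕ)
    (M : ∀ b, GM (π.m b) (nc b) (ZMod (π.p b))) (pub : _) (dec : _)
    (ν : ∀ b, Nav (π.m b) g.a (g.H.T b)), GMOk π nc M pub dec → NavPT ν →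
    DPr (fun x : Σ b, Cs (M b) dA dB × (RI g.a dA dB → Sy (M b) (ν b) dA dB) =>
      Test x.2.1 x.2.2) ∧
    DPT (fun x : Σ b, Cs (M b) dA dB × (RI g.a dA dB → Sy (M b) (ν b) dA dB) =>
      sucS x.2.1 x.2.2) ∧
    DPT fun x : Σ b, Cs (M b) dA dB × (RI g.a dA dB → Sy (M b) (ν b) dA dB) => preS x.2.1 x.2.2

/-- P7: the assembly. -/
def PAsm : Prop :=
  GrpStmt → MemPTStmt → EncStmt → GMStmt → ComplStmt → SoundStmt → StepStmt → NavStmt →
    PCorStmt → PDistStmt → PPTStmt → TOSStmt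

end Vale.Agent.P330.Outer.Phys
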