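import Vale.Agent.P330.Outer.Phys.Defs
import Vale.Agent.P330.Outer.MemFrame

/-!
P330, outer system: navigation data in polynomial time.
-/

set_option linter.unusedSectionVars false

namespace Vale.Agent.P330.Outer.Phys

open Vale.Agent.Lib.PolyTime hiding C P
open Vale.Agent.Lib.Dep

namespace CorP

section Ball

variable {H : Type} [Group H] {a : ℕ} (gen : Fin a → H)

open Classical in
/-- one more layer of the ball -/
noncomputable def grow (B : Vec H Bool) : Vec H Bool :=
  Vec.of fun h => decide (B h = true ∨ ∃ i, B ((gen i)⁻¹ * h) = true)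

open Classical in
/-- the ball of radius `k` -/
noncomputable def ball (k : ℕ) : Vec H Bool := (grow gen)^[k] (Vec.of fun h => decide (h = 1))

theorem ball_zero (h : H) : ball gen 0 h = true ↔ h = 1 := by simp [ball]

theorem ball_succ (k : ℕ) (h : H) :
    ball gen (k + 1) h = true ↔ ball gen k h = true ∨ ∃ i, ball gen k ((gen i)⁻¹ * h) = true := by
  rw [ball, Function.iterate_succ_apply', ← ball]
  simp [grow]

theorem ball_mono {k l : ℕ} (hkl : k ≤ l) {h : H} (hh : ball gen k h = true) :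
    ball gen l h = true := by
  induction hkl with
  | refl => exact hh
  | step _ ih => exact (ball_succ gen _ h).2 (Or.inl ih)

variable [Fintype H] {gen} {γ : ℝ}

open Classical in
theorem ball_card (hγ : 0 < γ) (hP : HPoinc γ gen) (k : ℕ) :
    (∀ h, ball gen k h = true) ∨ k + 1 ≤ (Finset.univ.filter fun h => ball gen k h = true).card := by
  induction k with
  | zero =>
    exact Or.inr (Finset.card_pos.2 ⟨1, Finset.mem_filter.2 ⟨Finset.mem_univ _,
      (ball_zero gen 1).2 rfl⟩⟩)
  | succ k ih =>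
    rcases ih with ih | ih
    · exact Or.inl fun h => ball_mono gen (Nat.le_succ k) (ih h)
    by_cases hc : ∀ h, ball gen (k + 1) h = true → ball gen k h = true
    · refine Or.inl fun h => ball_mono gen (Nat.le_succ k) ?_
      refine Fr.closed_of_poinc hγ hP (K := fun h => ball gen k h = true) (k₀ := 1)
        (ball_mono gen (Nat.zero_le k) ((ball_zero gen 1).2 rfl)) (fun h i hh => hc _ ?_) h
      exact (ball_succ gen k _).2 (Or.inr ⟨i, by simpa using hh⟩)
    · refine Or.inr (lt_of_le_of_lt ih (Finset.card_lt_card ⟨fun h hh => ?_, fun hs => hc ?_⟩))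
      · simp only [Finset.mem_filter, Finset.mem_univ, true_and] at hh ⊢
        exact ball_mono gen (Nat.le_succ k) hh
      · intro h hh
        simpa using hs (Finset.mem_filter.2 ⟨Finset.mem_univ h, hh⟩)

theorem ball_all (hγ : 0 < γ) (hP : HPoinc γ gen) (h : H) :
    ball gen (Fintype.card H - 1) h = true := by
  classical
  rcases ball_card hγ hP (Fintype.card H - 1) with h1 | h1
  · exact h1 h
  · have h2 : 0 < Fintype.card H := Fintype.card_pos
    have h3 : (Finset.univ.filter fun h => ball gen (Fintype.card H - 1) h = true) = Finset.univ :=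
      Finset.eq_univ_of_card _ (le_antisymm (Finset.card_le_univ _) (by omega))
    have h4 := Finset.mem_univ h
    rw [← h3] at h4
    exact (Finset.mem_filter.1 h4).2

variable (gen)

open Classical in
/-- the depth -/
noncomputable def dep (h : H) : ℕ :=
  (Finset.univ.filter fun k : Fin (Fintype.card H) => ball gen k h = false).card

variable {gen}

theorem dep_le_iff (hγ : 0 < γ) (hP : HPoinc γ gen) (h : H) (k : ℕ) :
    dep gen h ≤ k ↔ ball gen k h = true := by
  classical
  have hex : ∃ k, ball gen k h = true := ⟨_, ball_all hγ hP h⟩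
  have h1 : Nat.find hex ≤ Fintype.card H - 1 := Nat.find_min' hex (ball_all hγ hP h)
  have h2 : 0 < Fintype.card H := Fintype.card_pos
  have h3 : ∀ l, ball gen l h = true ↔ Nat.find hex ≤ l := fun l =>
    ⟨Nat.find_min' hex, fun hl => ball_mono gen hl (Nat.find_spec hex)⟩
  have h4 : dep gen h = Nat.find hex := by
    have h5 := Fin.card_filter_val_lt (n := Fintype.card H) (m := Nat.find hex)
    rw [min_eq_right (by omega)] at h5
    rw [dep, ← h5]
    congr 1
    ext l
    simp only [Finset.mem_filter, Finset.mem_univ, true_and]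
    rw [← not_le, ← h3, Bool.not_eq_true]
  rw [h4, h3]

end Ball

end CorP

open CorP in
theorem navStmt : NavStmt := by
  classical
  intro π g
  have hH := g.H.pt
  have hmul : ∀ {κ : Type} [Enc κ] {c : κ → π.β} {x y : ∀ k, g.H.T (c k)}, DPT c → DPT x → DPT y →
      DPT fun k => x k * y k := fun {κ} _ {c x y} hc hx hy =>
    DPT.comp (f := fun k => (⟨c k, x k, y k⟩ : Σ b, g.H.T b × g.H.T b)) g.ptMul
      (DPT.smk hc (hx.pair hy))
  have hgi : ∀ i, DPT fun b => (g.gen b i)⁻¹ := fun i => DPT.app g.ptInv (g.ptGen i)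
  have hball : DPT fun x : Σ b, Fin (Fintype.card (g.H.T b)) => ball (g.gen x.1) x.2 := by
    have c1 : DPT fun x : Σ b, Fin (Fintype.card (g.H.T b)) => x.1 := DPT.id.sfst
    refine dpt_iterate_bdd (T := fun x : Σ b, Fin (Fintype.card (g.H.T b)) => Vec (g.H.T x.1) Bool)
      (exists_esize_vec_le (hH.comp c1) ⟨fun _ => 1, PBd.const 1, fun _ y => by cases y <;> rfl⟩)
      (dpt_finVal DPT.ssnd) (pbd_finVal (pbd_comp g.H.pbd_card c1))
      (dpt_vecOf (hH.comp c1) (@DPT.decide _ _ _ (fun _ => Classical.propDecidable _)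
        (DPr.eq DPT.ssnd (g.ptOne.comp (c1.comp DPT.id.sfst))))) ?_
    have c2 : DPT fun x : Σ x : Σ b, Fin (Fintype.card (g.H.T b)), Vec (g.H.T x.1) Bool => x.1.1 :=
      DPT.id.sfst.sfst
    refine dpt_vecOf (hH.comp c2) (DPT.decide ?_)
    have c3 := c2.comp (DPT.id.sfst (β := fun x : Σ x : Σ b, Fin (Fintype.card (g.H.T b)),
      Vec (g.H.T x.1) Bool => g.H.T x.1.1))
    have c4 := DPT.ssnd.comp (DPT.id.sfst (β := fun x : Σ x : Σ b, Fin (Fintype.card (g.H.T b)),
      Vec (g.H.T x.1) Bool => g.H.T x.1.1))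
    refine DPr.or (DPr.eq (dpt_vecAt (hH.comp c3) c4 DPT.ssnd) (DPT.const true))
      (dpr_exists_const fun i => DPr.eq
        (dpt_vecAt (hH.comp c3) c4 (hmul c3 ((hgi i).comp c3) DPT.ssnd)) (DPT.const true))
  have hdep : DPT fun x : Σ b, g.H.T b => dep (g.gen x.1) x.2 := by
    have c1 : DPT fun x : Σ b, g.H.T b => x.1 := DPT.id.sfst
    refine dpt_cardFilter (dpt_elems_fin (g.H.dpt_card.comp c1) (pbd_comp g.H.pbd_card c1)) ?_
    have c2 := c1.comp (DPT.id.sfst (β := fun x : Σ b, g.H.T b => Fin (Fintype.card (g.H.T x.1))))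
    refine DPr.eq (dpt_vecAt (hH.comp c2) ?_ (DPT.ssnd.comp DPT.id.sfst)) (DPT.const false)
    exact DPT.comp (f := fun x : Σ x : Σ b, g.H.T b, Fin (Fintype.card (g.H.T x.1)) =>
      (⟨x.1.1, x.2⟩ : Σ b, Fin (Fintype.card (g.H.T b)))) hball (DPT.smk c2 DPT.ssnd)
  refine ⟨fun b => ⟨g.gen b, g.base b,
    fun ω => firstD (fun x : Fin 16 × g.H.T b => x.2 • ω = g.base b x.1) (0, 1),
    Fintype.card (g.H.T b), dep (g.gen b), fun h => (elems (Fin g.a)).find? fun i =>
      decide (dep (g.gen b) ((g.gen b i)⁻¹ * h) < dep (g.gen b) h)⟩,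
    fun b => ⟨⟨fun ω => ?_, fun h => ?_, fun h => ?_, fun h i hi => ?_⟩, rfl, rfl⟩,
    g.H.dpt_card, g.H.pbd_card, ?_, hdep, ?_⟩
  · obtain ⟨i, h, e⟩ := g.trans b ω
    exact firstD_spec (q := fun x : Fin 16 × g.H.T b => x.2 • ω = g.base b x.1) ⟨(i, h), e⟩ _
  · have h1 := (dep_le_iff g.pos (g.poinc b) h _).2 (ball_all g.pos (g.poinc b) h)
    have h2 : 0 < Fintype.card (g.H.T b) := Fintype.card_pos
    simp only
    omega
  · simp only [List.find?_eq_none, decide_eq_true_eq, not_lt]
    constructor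
    · intro hn
      by_contra h1
      have h2 : ¬ dep (g.gen b) h ≤ 0 := fun h2 =>
        h1 ((ball_zero _ h).1 ((dep_le_iff g.pos (g.poinc b) h 0).1 h2))
      obtain ⟨k, hk⟩ : ∃ k, dep (g.gen b) h = k + 1 := ⟨dep (g.gen b) h - 1, by omega⟩
      rcases (ball_succ _ k h).1 ((dep_le_iff g.pos (g.poinc b) h _).1 hk.le) with h3 | ⟨i, h3⟩
      · have := (dep_le_iff g.pos (g.poinc b) h _).2 h3
        omega
      · have h4 := (dep_le_iff g.pos (g.poinc b) _ _).2 h3
        have h5 := hn i (mem_elems i)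
        omega
    · rintro rfl i _
      exact ((dep_le_iff g.pos (g.poinc b) 1 0).2 ((ball_zero _ _).2 rfl)).trans (Nat.zero_le _)
  · simpa using List.find?_some hi
  · have c1 : DPT fun x : Σ b, Fin (π.m b) => x.1 := DPT.id.sfst
    refine dpt_firstD (dpt_elems_prod (DPT.const _) (hH.comp c1)) ?_
      ((DPT.const 0).pair (g.ptOne.comp c1))
    have c2 := c1.comp (DPT.id.sfst (β := fun x : Σ b, Fin (π.m b) => Fin 16 × g.H.T x.1))
    refine DPr.eq ?_ (dpt_cases (f := fun i (x : Σ x : Σ b, Fin (π.m b), Fin 16 × g.H.T x.1) =>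
      g.base x.1.1 i) DPT.ssnd.fst fun i => (g.ptBase i).comp c2)
    exact DPT.comp (f := fun x : Σ x : Σ b, Fin (π.m b), Fin 16 × g.H.T x.1 =>
      (⟨x.1.1, x.2.2, x.1.2⟩ : Σ b, g.H.T b × Fin (π.m b))) g.ptAct
      (DPT.smk c2 (DPT.ssnd.snd.pair (DPT.ssnd.comp DPT.id.sfst)))
  · have c1 : DPT fun x : Σ b, g.H.T b => x.1 := DPT.id.sfst
    have h1 : DPT fun (x : Σ b, g.H.T b) (i : Fin g.a) =>
        decide (dep (g.gen x.1) ((g.gen x.1 i)⁻¹ * x.2) < dep (g.gen x.1) x.2) :=
      dpt_piMk fun i => DPT.decide (DPr.lt (DPT.comp (f := fun x : Σ b, g.H.T b =>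
        (⟨x.1, (g.gen x.1 i)⁻¹ * x.2⟩ : Σ b, g.H.T b)) hdep
        (DPT.smk c1 (hmul c1 ((hgi i).comp c1) DPT.ssnd))) hdep)
    exact dpt_finComp (fun t : Fin g.a → Bool => (elems (Fin g.a)).find? t) h1

end Vale.Agent.P330.Outer.Phys
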