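import Vale.Agent.P330.Outer.Phys.Defs
import Vale.Agent.P330.Outer.MemEnc
import Vale.Agent.P330.Outer.MemFrame

/-!
P330, outer system: basic facts on symbols, on the encoder and on the words of the states.
-/

namespace Vale.Agent.P330.Outer.Phys

open Vale.Agent.P330.Bohr

variable {m nc a dA dB : ℕ} {F H : Type} [Field F] [Group H] [MulAction H (Fin m)]
  {M : GM m nc F} {ν : Nav m a H}

/-! ### Symbols -/

section Sym

variable (τ : Ck (NN M ν)) (κ : Fin 2 → Vec (Fin nc) F) (w : Rg M.n H → View dA dB F)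

omit [Group H] [MulAction H (Fin m)]

@[simp] theorem mkSy_ck (τ' : Ck (NN M ν)) :
    (mkSy τ κ w : Sy M ν dA dB).ck τ' = if τ' = τ then 1 else 0 := rfl

@[simp] theorem mkSy_kp : (mkSy τ κ w : Sy M ν dA dB).kp = κ := rfl

@[simp] theorem mkSy_vw : (mkSy τ κ w : Sy M ν dA dB).vw = w := rfl

@[simp] theorem mkSy_clk : (mkSy τ κ w : Sy M ν dA dB).clk = τ := by
  classical
  unfold Sy.clk
  cases h : (elems (Ck (NN M ν))).find? fun τ' =>
      decide ((mkSy τ κ w : Sy M ν dA dB).ck τ' ≠ 0) with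
  | none =>
    have := List.find?_eq_none.1 h τ (En.complete τ)
    simp at this
  | some τ' =>
    have := List.find?_some h
    simp only [mkSy_ck, ne_eq, ite_eq_right_iff, one_ne_zero, imp_false, not_not,
      decide_eq_true_eq] at this
    exact this

theorem mkSy_inl (w' : Rg M.n H → View dA dB F) (j : Ck (NN M ν) ⊕ Fin 2 × Fin nc) :
    (mkSy τ κ w : Sy M ν dA dB) (.inl j) = (mkSy τ κ w' : Sy M ν dA dB) (.inl j) := by
  cases j <;> rfl

omit [Field F] in
theorem Sy.ext {y y' : Sy M ν dA dB} (h1 : y.ck = y'.ck) (h2 : y.kp = y'.kp)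
    (h3 : y.vw = y'.vw) : y = y' := by
  funext j
  rcases j with (j | j) | j
  · exact congrFun h1 j
  · exact congrFun (congrFun h2 j.1) j.2
  · exact congrFun (congrFun (congrFun h3 j.1) j.2.1) j.2.2

theorem Sy.eq_mkSy {y : Sy M ν dA dB} (h : ∀ τ, y.ck τ = if τ = y.clk then 1 else 0) :
    y = mkSy y.clk y.kp y.vw := Sy.ext (funext h) rfl rfl

theorem mkSy_inj {τ τ' : Ck (NN M ν)} {κ κ' : Fin 2 → Vec (Fin nc) F}
    {w w' : Rg M.n H → View dA dB F} (h : (mkSy τ κ w : Sy M ν dA dB) = mkSy τ' κ' w') :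
    τ = τ' ∧ κ = κ' ∧ w = w' :=
  ⟨by simpa using congrArg Sy.clk h, congrArg Sy.kp h, congrArg Sy.vw h⟩

theorem Sy.vwN_lt (y : Sy M ν dA dB) (b : Fin 2) {i : ℕ} (hi : i < M.n) (h : H) :
    y.vwN b i h = y.vw (b, ⟨i, hi⟩, h) := dif_pos hi

theorem Sy.vwN_ge (y : Sy M ν dA dB) (b : Fin 2) {i : ℕ} (hi : ¬ i < M.n) (h : H) :
    y.vwN b i h = 0 := dif_neg hi

end Sym

/-! ### Unit vectors, shifts and frames -/

theorem smul_eV (h : H) (ω : Fin m) : h • (eV ω : Gam m) = eV (h • ω) := by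
  funext i
  rw [cube_smul]
  simp only [eV, inv_smul_eq_iff]

section Site

variable {Γ : Type} [AddCommGroup Γ] [DistribMulAction H Γ]

theorem tau_shf (h : H) (γ : Γ) (v : Site Γ H) : tau h (shf γ v) = shf (h • γ) (tau h v) := by
  simp only [tau, shf, smul_add]

theorem shf_mvA (γ : Γ) (s : Γ × H) (v : Site Γ H) : shf γ (mvA s v) = mvA s (shf γ v) := by
  simp only [shf, mvA, add_right_comm]

theorem shf_mvB (γ : Γ) (s : Γ × H) (v : Site Γ H) : shf γ (mvB s v) = mvB s (shf γ v) := by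
  simp only [shf, mvB, add_right_comm]

variable {E : Type} [AddCommGroup E] [Module F E] {μ : Mem Γ H F dA dB}

theorem cons_shf {X : Site Γ H → View dA dB E} (hX : μ.Cons X) (γ : Γ) :
    μ.Cons fun v => X (shf γ v) := fun v =>
  ⟨fun s => by
    have := (hX (shf γ v)).1 s
    unfold Mem.EdgeA at *
    simp only [shf_mvA]
    exact this,
  fun s => by
    have := (hX (shf γ v)).2 s
    unfold Mem.EdgeB at *
    simp only [shf_mvB]
    exact this⟩

theorem edgeVal_add {d : ℕ} (y : F) (P Q : Fin (d + 1) → E) (e : Bool × Fin d) :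
    edgeVal y (P + Q) e = edgeVal y P e + edgeVal y Q e := map_add (Enc.evL E y e) P Q

theorem edgeVal_smul {d : ℕ} (y c : F) (P : Fin (d + 1) → E) (e : Bool × Fin d) :
    edgeVal y (c • P) e = c • edgeVal y P e := map_smul (Enc.evL E y e) c P

theorem edgeVal_zero {d : ℕ} (y : F) (e : Bool × Fin d) :
    edgeVal y (0 : Fin (d + 1) → E) e = 0 := map_zero (Enc.evL E y e)

theorem cons_zero : μ.Cons (fun _ => (0 : View dA dB E)) := fun _ =>
  ⟨fun _ => (edgeVal_zero _ _).trans (edgeVal_zero _ _).symm,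
    fun _ => (edgeVal_zero _ _).trans (edgeVal_zero _ _).symm⟩

theorem cons_add {X Y : Site Γ H → View dA dB E} (hX : μ.Cons X) (hY : μ.Cons Y) :
    μ.Cons fun v => X v + Y v := fun v =>
  ⟨fun s => by
    have h1 := (hX v).1 s
    have h2 := (hY v).1 s
    unfold Mem.EdgeA at *
    rw [edgeVal_add, edgeVal_add, h1, h2],
  fun s => by
    have h1 := (hX v).2 s
    have h2 := (hY v).2 s
    unfold Mem.EdgeB at *
    have h : ∀ P Q : View dA dB E, (P + Q).tr = P.tr + Q.tr := fun _ _ => rfl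
    rw [h, h, edgeVal_add, edgeVal_add, h1, h2]⟩

theorem cons_smul {X : Site Γ H → View dA dB E} (hX : μ.Cons X) (c : F) :
    μ.Cons fun v => c • X v := fun v =>
  ⟨fun s => by
    have h1 := (hX v).1 s
    unfold Mem.EdgeA at *
    rw [edgeVal_smul, edgeVal_smul, h1],
  fun s => by
    have h1 := (hX v).2 s
    unfold Mem.EdgeB at *
    have h : ∀ P : View dA dB E, (c • P).tr = c • P.tr := fun _ => rfl
    rw [h, h, edgeVal_smul, edgeVal_smul, h1]⟩

end Site

/-! ### The order of the building steps -/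

omit [Field F] [MulAction H (Fin m)] in
theorem ord_lt_of_lt (hlt : ∀ h, ν.dep h < ν.D) (κ κ' : Vec (Fin nc) F) {j i : ℕ} (hji : j < i)
    (h h' : H) : ord M ν κ j h < ord M ν κ' i h' := by
  have h1 := hlt (h * (frame0 M ν κ j)⁻¹)
  have h2 : (j + 1) * ν.D ≤ i * ν.D := Nat.mul_le_mul_right _ hji
  rw [Nat.add_mul, Nat.one_mul] at h2
  unfold ord
  omega

omit [Field F] [MulAction H (Fin m)] in
theorem ord_lt_NN (hlt : ∀ h, ν.dep h < ν.D) (κ : Vec (Fin nc) F) {i : ℕ} (hi : i < M.n) (h : H) :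
    ord M ν κ i h < NN M ν := by
  have h1 := hlt (h * (frame0 M ν κ i)⁻¹)
  have h2 : (i + 1) * ν.D ≤ M.n * ν.D := Nat.mul_le_mul_right _ hi
  rw [Nat.add_mul, Nat.one_mul] at h2
  unfold ord NN
  omega

omit [Field F] in
theorem ord_par (hν : ν.Ok) (κ : Vec (Fin nc) F) (i : ℕ) {h : H} {s : Fin a}
    (hs : ν.par (h * (frame0 M ν κ i)⁻¹) = some s) :
    ord M ν κ i ((ν.gen s)⁻¹ * h) < ord M ν κ i h := by
  have := hν.par _ _ hs
  unfold ord
  rw [mul_assoc]
  omega

omit [Field F] [Group H] [MulAction H (Fin m)] in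
theorem cnt_le (τ : Ck (NN M ν)) (b : Fin 2) : cnt M ν τ b ≤ NN M ν := by
  have := τ.2.2
  unfold cnt
  split_ifs <;> omega

omit [Field F] [Group H] [MulAction H (Fin m)] in
theorem cnt_self {τ : Ck (NN M ν)} {b : Fin 2} (h : selfB M ν τ b) : cnt M ν τ b = NN M ν := by
  rcases h with ⟨h1, rfl⟩ | ⟨h1, rfl⟩ <;> simp [cnt, h1]

/-! ### The registers of the machine -/

theorem reg_lt (M : GM m nc F) (pub : ℕ → Gam m → F) (κ : Vec (Fin nc) F)
    (x : Fin M.k → Gam m → F) {i : ℕ} (hi : i < M.k) : M.reg pub κ x i = x ⟨i, hi⟩ := by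
  unfold GM.reg
  rw [run_eq, if_pos hi, dif_pos hi]

theorem reg_ge (M : GM m nc F) (pub : ℕ → Gam m → F) (κ : Vec (Fin nc) F)
    (x : Fin M.k → Gam m → F) {i : ℕ} (hi : ¬ i < M.k) :
    M.reg pub κ x i = (M.ins κ i).eval pub fun j => if j < i then M.reg pub κ x j else 0 := by
  unfold GM.reg
  rw [run_eq, if_neg hi]

/-! ### The encoder -/

variable {μ : Mem (Gam m) H F dA dB} {en : (Gam m → F) → Site (Gam m) H → View dA dB F}
  {pub : ℕ → Gam m → F}

namespace Std

variable (hS : Std M ν μ en pub)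
include hS

theorem cons (x : Gam m → F) : μ.Cons (en x) := (hS.enc x).1

theorem root (x : Gam m → F) (v : Site (Gam m) H) :
    en x v (Fin.last dA) (Fin.last dB) = x v.1 := (hS.enc x).2 v

theorem cons_tau (x : Gam m → F) (h : H) : μ.Cons fun v => en x (tau h v) :=
  Fr.cons_tau (hS.cons x) h

theorem en_zero (v : Site (Gam m) H) : en 0 v = 0 :=
  (congrFun (hS.uniq 0 (fun _ => 0) ⟨cons_zero, fun _ => rfl⟩) v).symm

theorem en_add (x y : Gam m → F) (v : Site (Gam m) H) : en (x + y) v = en x v + en y v :=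
  (congrFun (hS.uniq (x + y) (fun v => en x v + en y v)
    ⟨cons_add (hS.cons x) (hS.cons y), fun v => by
      simp only [Pi.add_apply, hS.root]⟩) v).symm

theorem en_smul (c : F) (x : Gam m → F) (v : Site (Gam m) H) : en (c • x) v = c • en x v :=
  (congrFun (hS.uniq (c • x) (fun v => c • en x v)
    ⟨cons_smul (hS.cons x) c, fun v => by simp only [Pi.smul_apply, hS.root]⟩) v).symm

theorem en_shf (x : Gam m → F) (γ : Gam m) (v : Site (Gam m) H) :
    en (fun ε => x (ε + γ)) v = en x (shf γ v) :=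
  (congrFun (hS.uniq (fun ε => x (ε + γ)) (fun v => en x (shf γ v))
    ⟨cons_shf (hS.cons x) γ, fun _ => hS.root x _⟩) v).symm

theorem en_lin (l : List (F × ℕ)) (r : ℕ → Gam m → F) (v : Site (Gam m) H) :
    en (fun ε => (l.map fun c => c.1 * r c.2 ε).sum) v = (l.map fun c => c.1 • en (r c.2) v).sum := by
  induction l with
  | nil => exact hS.en_zero v
  | cons c l ih =>
    rw [List.map_cons, List.sum_cons, ← ih, ← hS.en_smul, ← hS.en_add]
    rfl

theorem en_inj {x y : Gam m → F} (h : ∀ ε, en x (ε, 1, 1) = en y (ε, 1, 1)) : x = y :=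
  funext fun ε => by rw [← hS.root x (ε, 1, 1), ← hS.root y (ε, 1, 1), h]

theorem n_pos : 0 < M.n := lt_of_le_of_lt (Nat.zero_le _) (hS.ok.sucR 0 0)

theorem D_pos : 0 < ν.D := lt_of_le_of_lt (Nat.zero_le _) (hS.nav.lt 1)

theorem NN_pos : 0 < NN M ν := Nat.mul_pos hS.n_pos hS.D_pos

theorem ord_lt (κ : Vec (Fin nc) F) {i : ℕ} (hi : i < M.n) (h : H) : ord M ν κ i h < NN M ν :=
  ord_lt_NN hS.nav.lt κ hi h

end Std

/-! ### The constants -/

omit [Group H] [MulAction H (Fin m)] in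
@[simp] theorem cstS_pt (v : Site (Gam m) H) : (cstS (M := M) μ en pub v).pt = v.1 := by
  funext i
  have h2 : ∀ z : ZMod 2, z ≠ 0 → 1 = z := by decide
  by_cases h : v.1 i = 0
  · simp [Cs.pt, cstS, h]
  · simpa [Cs.pt, cstS, h] using h2 _ h

omit [Group H] [MulAction H (Fin m)] in
@[simp] theorem cstS_y0 (v : Site (Gam m) H) : (cstS (M := M) μ en pub v).y 0 = μ.yA := rfl

omit [Group H] [MulAction H (Fin m)] in
@[simp] theorem cstS_y1 (v : Site (Gam m) H) : (cstS (M := M) μ en pub v).y 1 = μ.yB := rfl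

theorem cstS_pub (hS : Std M ν μ en pub) (v : Site (Gam m) H) (l : ℕ) :
    (cstS (M := M) μ en pub v).pub l = en (pub l) v := by
  unfold Cs.pub
  split_ifs with h
  · rfl
  · rw [hS.ok.pubz l (not_lt.1 h), hS.en_zero]

/-! ### The defining value of a register -/

/-- If the earlier registers are in order at the sites which are read, then `defV` is the value
of the encoded register. -/
theorem defV_eq (hS : Std M ν μ en pub) (v : Site (Gam m) H) (Y : RI a dA dB → Sy M ν dA dB)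
    (ph : Fin 3) (κ : Vec (Fin nc) F) (x : Fin M.k → Gam m → F) (b : Fin 2) (i : ℕ) (h : H)
    (hO : ∀ j < i, (Y (.inl ())).vwN b j 1 = en (M.reg pub κ x j) v)
    (hP : ∀ s, ν.par (h * (frame0 M ν κ i)⁻¹) = some s →
      (Y (.inr (.inr (.inl (1, s))))).vwN b i ((ν.gen s)⁻¹ * h) =
        en (M.reg pub κ x i) (tau ((ν.gen s)⁻¹ * h)⁻¹ (tau (ν.gen s)⁻¹ v)))
    (hB : ∀ t, ∀ j < i, (Y (.inr (.inr (.inr (.inl t))))).vwN b j h =
      en (M.reg pub κ x j) (tau h⁻¹ (shf (eV (ν.base t)) v)))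
    (hsrc : i < M.k → h = 1 → srcV (Y (.inl ())) ph b i = en (M.reg pub κ x i) v) :
    defV (cstS μ en pub v) Y ph κ b i h = en (M.reg pub κ x i) (tau h⁻¹ v) := by
  unfold defV
  cases hs : ν.par (h * (frame0 M ν κ i)⁻¹) with
  | some s =>
    simp only
    rw [hP s hs, Fr.tau_tau, mul_inv_rev, inv_inv, mul_inv_cancel_right]
  | none =>
    have h0 : h = frame0 M ν κ i := mul_inv_eq_one.1 ((hS.nav.root _).1 hs)
    simp only
    split_ifs with hk
    · have h1 : h = 1 := by rw [h0, frame0, if_pos hk]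
      rw [hsrc hk h1, h1, inv_one, Fr.tau_one]
    · rw [reg_ge M pub κ x hk]
      unfold frame0 at h0
      rw [if_neg hk] at h0
      rcases hc : M.ins κ i with l | c | l
      · rw [hc] at h0
        simp only at h0 ⊢
        rw [h0, inv_one, Fr.tau_one, LIns.eval,
          hS.en_lin l fun j => if j < i then M.reg pub κ x j else 0]
        congr 1
        refine List.map_congr_left fun c _ => ?_
        split_ifs with hj
        · rw [hO _ hj]
        · rw [hS.en_zero, smul_zero]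
      · rw [hc] at h0
        simp only at h0 ⊢
        rw [LIns.eval]
        split_ifs with hj
        · rw [hB _ _ hj, hS.en_shf, tau_shf, smul_eV, ← hS.nav.fr, ← h0, inv_smul_smul]
        · exact (hS.en_zero _).symm
      · rw [hc] at h0
        simp only at h0 ⊢
        rw [h0, inv_one, Fr.tau_one, LIns.eval, cstS_pub hS]

/-! ### The words of the states -/

section Word

variable (τ : Ck (NN M ν)) (κ : Fin 2 → Vec (Fin nc) F) (x : Fin 2 → Fin M.k → Gam m → F)
  (v : Site (Gam m) H)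

@[simp] theorem wordS_clk : (wordS en pub τ κ x v : Sy M ν dA dB).clk = τ := mkSy_clk _ _ _

@[simp] theorem wordS_kp : (wordS en pub τ κ x v : Sy M ν dA dB).kp = κ := rfl

@[simp] theorem wordS_ck (τ' : Ck (NN M ν)) :
    (wordS en pub τ κ x v : Sy M ν dA dB).ck τ' = if τ' = τ then 1 else 0 := rfl

theorem wordS_vw (ρ : Rg M.n H) : (wordS en pub τ κ x v : Sy M ν dA dB).vw ρ =
    if ord M ν (κ ρ.1) ρ.2.1 ρ.2.2 < cnt M ν τ ρ.1 then
      en (M.reg pub (κ ρ.1) (x ρ.1) ρ.2.1) (tau ρ.2.2⁻¹ v) else 0 := rfl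

variable {τ κ}

theorem wordS_vwN {b : Fin 2} {i : ℕ} (hi : i < M.n) {h : H}
    (ho : ord M ν (κ b) i h < cnt M ν τ b) : (wordS en pub τ κ x v : Sy M ν dA dB).vwN b i h =
      en (M.reg pub (κ b) (x b) i) (tau h⁻¹ v) := by
  rw [Sy.vwN_lt _ _ hi, wordS_vw, if_pos ho]

theorem wordS_vwN_full (hS : Std M ν μ en pub) {b : Fin 2} (hb : cnt M ν τ b = NN M ν) {i : ℕ}
    (hi : i < M.n) (h : H) : (wordS en pub τ κ x v : Sy M ν dA dB).vwN b i h =
      en (M.reg pub (κ b) (x b) i) (tau h⁻¹ v) :=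
  wordS_vwN x v hi (hb ▸ hS.ord_lt _ hi h)

theorem wordS_vwN_one (hS : Std M ν μ en pub) {b : Fin 2} (hb : cnt M ν τ b = NN M ν) {i : ℕ}
    (hi : i < M.n) : (wordS en pub τ κ x v : Sy M ν dA dB).vwN b i 1 =
      en (M.reg pub (κ b) (x b) i) v := by
  rw [wordS_vwN_full x v hS hb hi, inv_one, Fr.tau_one]

theorem wordS_roots (hS : Std M ν μ en pub) {b : Fin 2} (hb : cnt M ν τ b = NN M ν) :
    (wordS en pub τ κ x v : Sy M ν dA dB).roots b = M.roots pub (κ b) (x b) v.1 :=
  List.map_congr_left fun i hi => by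
    rw [wordS_vwN_one x v hS hb (List.mem_range.1 hi), hS.root]

/-- every register of a word is a codeword -/
theorem wordS_cons (hS : Std M ν μ en pub) (τ : Ck (NN M ν)) (κ : Fin 2 → Vec (Fin nc) F)
    (ρ : Rg M.n H) : μ.Cons fun v => (wordS en pub τ κ x v : Sy M ν dA dB).vw ρ := by
  simp only [wordS_vw]
  split_ifs
  · exact hS.cons_tau _ _
  · exact cons_zero

end Word

end Vale.Agent.P330.Outer.Phys
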